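import Vale.Agent.P159.TM.H60.Clus

/-!
The union of the open clusters which meet a set `X` of sources, and the corresponding decomposition.
`cls a b om {u} = clus a b om u`.
-/

open Finset

set_option linter.unusedSectionVars false
set_option linter.unusedDecidableInType false

namespace Vale.Agent.P159.TM.H60

variable {V E : Type*} [Fintype V] [DecidableEq V] [Fintype E] [DecidableEq E]

open Classical in
/-- the union of the open clusters meeting `X` -/
noncomputable def cls (a b : E → V) (om : Finset E) (X : Finset V) : Finset V :=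
  univ.filter (fun v => ∃ u ∈ X, Conn a b om u v)

theorem mem_cls {a b : E → V} {om : Finset E} {X : Finset V} {v : V} :
    v ∈ cls a b om X ↔ ∃ u ∈ X, Conn a b om u v := by
  classical
  simp [cls]

theorem cls_single (a b : E → V) (om : Finset E) (u : V) :
    cls a b om {u} = clus a b om u := by
  ext v
  rw [mem_cls, mem_clus]
  simp

theorem sub_cls (a b : E → V) (om : Finset E) (X : Finset V) : X ⊆ cls a b om X :=
  fun u hu => mem_cls.2 ⟨u, hu, Conn.refl u⟩

theorem clus_sub_cls {a b : E → V} {om : Finset E} {X : Finset V} {u : V} (hu : u ∈ X) :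
    clus a b om u ⊆ cls a b om X := fun _ hv => mem_cls.2 ⟨u, hu, mem_clus.1 hv⟩

/-- a cluster meeting the union of the clusters of `X` is contained in it -/
theorem clus_sub_of_mem {a b : E → V} {om : Finset E} {X : Finset V} {v : V}
    (hv : v ∈ cls a b om X) : clus a b om v ⊆ cls a b om X := by
  intro w hw
  obtain ⟨u, hu, hc⟩ := mem_cls.1 hv
  exact mem_cls.2 ⟨u, hu, hc.trans (mem_clus.1 hw)⟩

/-- clusters off the union of the clusters of `X` -/
theorem clus_disj_of_not_mem {a b : E → V} {om : Finset E} {X : Finset V} {v : V}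
    (hv : v ∉ cls a b om X) : Disjoint (clus a b om v) (cls a b om X) := by
  rw [Finset.disjoint_left]
  intro w hw h
  obtain ⟨u, hu, hc⟩ := mem_cls.1 h
  exact hv (mem_cls.2 ⟨u, hu, hc.trans (mem_clus.1 hw).symm⟩)

theorem cls_edge {a b : E → V} {om : Finset E} {X : Finset V} {e : E} (he : e ∈ om) :
    a e ∈ cls a b om X ↔ b e ∈ cls a b om X := by
  rw [mem_cls, mem_cls]
  exact ⟨fun ⟨u, hu, h⟩ => ⟨u, hu, h.trans (Conn.edge he)⟩,
    fun ⟨u, hu, h⟩ => ⟨u, hu, h.trans (Conn.edge he).symm⟩⟩

theorem cls_no_bd {a b : E → V} {om : Finset E} {X A : Finset V}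
    (h : cls a b om X = A) : Disjoint om (bdE a b A) := by
  rw [Finset.disjoint_left]
  intro e he hb
  rw [mem_bdE] at hb
  subst h
  exact hb (cls_edge he)

theorem cls_inter_in {a b : E → V} {om : Finset E} {X A : Finset V}
    (h : cls a b om X = A) : cls a b (om ∩ inE a b A) X = A := by
  apply Finset.Subset.antisymm
  · intro v hv
    rw [← h, mem_cls]
    obtain ⟨u, hu, hc⟩ := mem_cls.1 hv
    exact ⟨u, hu, hc.mono Finset.inter_subset_left⟩
  · intro v hv
    rw [← h, mem_cls] at hv
    obtain ⟨u, hu, hc⟩ := hv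
    rw [mem_cls]
    refine ⟨u, hu, ?_⟩
    unfold Conn at hc ⊢
    induction hc with
    | refl => exact Relation.ReflTransGen.refl
    | @tail y z h1 h2 ih =>
      refine ih.tail ?_
      obtain ⟨e, he, hxy⟩ := h2
      have hy : y ∈ A := by rw [← h]; exact mem_cls.2 ⟨u, hu, h1⟩
      have hz : z ∈ A := by
        rw [← h]
        exact mem_cls.2 ⟨u, hu, Relation.ReflTransGen.tail h1 ⟨e, he, hxy⟩⟩
      refine ⟨e, ?_, hxy⟩
      rw [Finset.mem_inter, mem_inE]
      refine ⟨he, ?_⟩
      rcases hxy with ⟨h3, h4⟩ | ⟨h3, h4⟩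
      · rw [h3, h4]; exact ⟨hy, hz⟩
      · rw [h3, h4]; exact ⟨hz, hy⟩

theorem cls_union {a b : E → V} {s t : Finset E} {X A : Finset V}
    (h : cls a b s X = A) (ht : t ⊆ outE a b A) : cls a b (s ∪ t) X = A := by
  apply Finset.Subset.antisymm
  · intro v hv
    obtain ⟨u, hu, hc⟩ := mem_cls.1 hv
    unfold Conn at hc
    induction hc with
    | refl => rw [← h]; exact sub_cls _ _ _ _ hu
    | @tail y z h1 h2 ih =>
      have ihy : y ∈ A := ih (mem_cls.2 ⟨u, hu, h1⟩)
      obtain ⟨e, he, hxy⟩ := h2
      rcases Finset.mem_union.1 he with hes | het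
      · rw [← h] at ihy ⊢
        obtain ⟨w, hw, hc⟩ := mem_cls.1 ihy
        exact mem_cls.2 ⟨w, hw, hc.tail ⟨e, hes, hxy⟩⟩
      · have := ht het
        rw [mem_outE] at this
        rcases hxy with ⟨h3, h4⟩ | ⟨h3, h4⟩
        · rw [h3] at this; exact absurd ihy this.1
        · rw [h4] at this; exact absurd ihy this.2
  · intro v hv
    rw [← h, mem_cls] at hv
    obtain ⟨u, hu, hc⟩ := hv
    rw [mem_cls]
    exact ⟨u, hu, hc.mono Finset.subset_union_left⟩

/-- total weight of the open configurations inside `A` for which the clusters of `X` fill `A` -/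
noncomputable def insS {R : Type*} [CommSemiring R] (a b : E → V) (op cl : E → R) (X A : Finset V) :
    R :=
  ∑ om ∈ (inE a b A).powerset.filter (fun om => cls a b om X = A),
    (∏ e ∈ om, op e) * ∏ e ∈ inE a b A \ om, cl e

theorem insS_single {R : Type*} [CommSemiring R] (a b : E → V) (op cl : E → R) (u : V)
    (A : Finset V) : insS a b op cl {u} A = ins a b op cl u A := by
  unfold insS ins
  simp only [cls_single]

theorem eq_union_of_cls {a b : E → V} {om : Finset E} {X A : Finset V}
    (h : cls a b om X = A) : om = (om ∩ inE a b A) ∪ (om ∩ outE a b A) := by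
  ext e
  simp only [Finset.mem_union, Finset.mem_inter]
  constructor
  · intro he
    have h1 : e ∈ inE a b A ∪ bdE a b A ∪ outE a b A := by
      rw [union_three]; exact Finset.mem_univ e
    have h2 := Finset.disjoint_left.1 (cls_no_bd h) he
    rcases Finset.mem_union.1 h1 with h3 | h3
    · rcases Finset.mem_union.1 h3 with h4 | h4
      · exact Or.inl ⟨he, h4⟩
      · exact absurd h4 h2
    · exact Or.inr ⟨he, h3⟩
  · rintro (h1 | h1)
    · exact h1.1
    · exact h1.1

/-- The weight of all open sets for which the clusters of `X` fill `A`. -/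
theorem sum_cls_eq {R : Type*} [CommSemiring R] (a b : E → V) (op cl : E → R)
    (X A : Finset V) :
    ∑ om ∈ univ.filter (fun om : Finset E => cls a b om X = A),
        (∏ e ∈ om, op e) * ∏ e ∈ omᶜ, cl e
      = insS a b op cl X A * (∏ e ∈ bdE a b A, cl e) * ∏ e ∈ outE a b A, (op e + cl e) := by
  classical
  rw [insS, Finset.prod_add, mul_assoc, Finset.mul_sum, Finset.sum_mul_sum]
  rw [← Finset.sum_product']
  refine Finset.sum_bij' (fun om _ => (om ∩ inE a b A, om ∩ outE a b A))
    (fun p _ => p.1 ∪ p.2) ?_ ?_ ?_ ?_ ?_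
  · intro om hom
    rw [Finset.mem_filter] at hom
    rw [Finset.mem_product, Finset.mem_filter, Finset.mem_powerset, Finset.mem_powerset]
    exact ⟨⟨Finset.inter_subset_right, cls_inter_in hom.2⟩, Finset.inter_subset_right⟩
  · intro p hp
    rw [Finset.mem_product, Finset.mem_filter, Finset.mem_powerset, Finset.mem_powerset] at hp
    rw [Finset.mem_filter]
    exact ⟨Finset.mem_univ _, cls_union hp.1.2 hp.2⟩
  · intro om hom
    rw [Finset.mem_filter] at hom
    exact (eq_union_of_cls hom.2).symm
  · rintro ⟨s, t⟩ hp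
    rw [Finset.mem_product, Finset.mem_filter, Finset.mem_powerset, Finset.mem_powerset] at hp
    have hs : s ⊆ inE a b A := hp.1.1
    have ht : t ⊆ outE a b A := hp.2
    have hd := disj_in_out a b A
    ext e
    · simp only [Finset.mem_inter, Finset.mem_union]
      have : e ∈ inE a b A → e ∉ outE a b A := fun h => Finset.disjoint_left.1 hd h
      have h1 : e ∈ s → e ∈ inE a b A := fun h => hs h
      have h2 : e ∈ t → e ∈ outE a b A := fun h => ht h
      tauto
    · simp only [Finset.mem_inter, Finset.mem_union]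
      have : e ∈ inE a b A → e ∉ outE a b A := fun h => Finset.disjoint_left.1 hd h
      have h1 : e ∈ s → e ∈ inE a b A := fun h => hs h
      have h2 : e ∈ t → e ∈ outE a b A := fun h => ht h
      tauto
  · intro om hom
    rw [Finset.mem_filter] at hom
    have hu := eq_union_of_cls hom.2
    have hs : om ∩ inE a b A ⊆ inE a b A := Finset.inter_subset_right
    have ht : om ∩ outE a b A ⊆ outE a b A := Finset.inter_subset_right
    have hc : omᶜ = (inE a b A \ (om ∩ inE a b A)) ∪ bdE a b A
        ∪ (outE a b A \ (om ∩ outE a b A)) := by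
      conv_lhs => rw [hu]
      exact compl_union hs ht
    have hd1 : Disjoint (om ∩ inE a b A) (om ∩ outE a b A) :=
      (disj_in_out a b A).mono hs ht
    have hd2 : Disjoint (inE a b A \ (om ∩ inE a b A)) (bdE a b A) :=
      (disj_in_bd a b A).mono_left Finset.sdiff_subset
    have hd3 : Disjoint ((inE a b A \ (om ∩ inE a b A)) ∪ bdE a b A)
        (outE a b A \ (om ∩ outE a b A)) := by
      rw [Finset.disjoint_union_left]
      exact ⟨(disj_in_out a b A).mono Finset.sdiff_subset Finset.sdiff_subset,
        (disj_bd_out a b A).mono_right Finset.sdiff_subset⟩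
    have hp1 : ∏ e ∈ om, op e = (∏ e ∈ om ∩ inE a b A, op e) * ∏ e ∈ om ∩ outE a b A, op e := by
      conv_lhs => rw [hu]
      exact Finset.prod_union hd1
    rw [hc, Finset.prod_union hd3, Finset.prod_union hd2, hp1]
    ring

/-- **decomposition along the clusters of `X`, the open set of the outside kept**: for a function
of `om` -/
theorem sum_cls_gen {R : Type*} [CommSemiring R] (a b : E → V) (op cl : E → R)
    (X A : Finset V) (f : Finset E → R) :
    ∑ om ∈ univ.filter (fun om : Finset E => cls a b om X = A),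
        (∏ e ∈ om, op e) * (∏ e ∈ omᶜ, cl e) * f om
      = ∑ o1 ∈ (inE a b A).powerset.filter (fun om => cls a b om X = A),
          ∑ o2 ∈ (outE a b A).powerset,
          ((∏ e ∈ o1, op e) * ∏ e ∈ inE a b A \ o1, cl e) * (∏ e ∈ bdE a b A, cl e)
          * ((∏ e ∈ o2, op e) * ∏ e ∈ outE a b A \ o2, cl e) * f (o1 ∪ o2) := by
  classical
  rw [← Finset.sum_product']
  refine Finset.sum_bij' (fun om _ => (om ∩ inE a b A, om ∩ outE a b A))
    (fun p _ => p.1 ∪ p.2) ?_ ?_ ?_ ?_ ?_
  · intro om hom
    rw [Finset.mem_filter] at hom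
    rw [Finset.mem_product, Finset.mem_filter, Finset.mem_powerset, Finset.mem_powerset]
    exact ⟨⟨Finset.inter_subset_right, cls_inter_in hom.2⟩, Finset.inter_subset_right⟩
  · intro p hp
    rw [Finset.mem_product, Finset.mem_filter, Finset.mem_powerset, Finset.mem_powerset] at hp
    rw [Finset.mem_filter]
    exact ⟨Finset.mem_univ _, cls_union hp.1.2 hp.2⟩
  · intro om hom
    rw [Finset.mem_filter] at hom
    exact (eq_union_of_cls hom.2).symm
  · rintro ⟨s, t⟩ hp
    rw [Finset.mem_product, Finset.mem_filter, Finset.mem_powerset, Finset.mem_powerset] at hp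
    have hs : s ⊆ inE a b A := hp.1.1
    have ht : t ⊆ outE a b A := hp.2
    have hd := disj_in_out a b A
    ext e
    · simp only [Finset.mem_inter, Finset.mem_union]
      have : e ∈ inE a b A → e ∉ outE a b A := fun h => Finset.disjoint_left.1 hd h
      have h1 : e ∈ s → e ∈ inE a b A := fun h => hs h
      have h2 : e ∈ t → e ∈ outE a b A := fun h => ht h
      tauto
    · simp only [Finset.mem_inter, Finset.mem_union]
      have : e ∈ inE a b A → e ∉ outE a b A := fun h => Finset.disjoint_left.1 hd h
      have h1 : e ∈ s → e ∈ inE a b A := fun h => hs h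
      have h2 : e ∈ t → e ∈ outE a b A := fun h => ht h
      tauto
  · intro om hom
    rw [Finset.mem_filter] at hom
    have hu := eq_union_of_cls hom.2
    have hs : om ∩ inE a b A ⊆ inE a b A := Finset.inter_subset_right
    have ht : om ∩ outE a b A ⊆ outE a b A := Finset.inter_subset_right
    have hc : omᶜ = (inE a b A \ (om ∩ inE a b A)) ∪ bdE a b A
        ∪ (outE a b A \ (om ∩ outE a b A)) := by
      conv_lhs => rw [hu]
      exact compl_union hs ht
    have hd1 : Disjoint (om ∩ inE a b A) (om ∩ outE a b A) :=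
      (disj_in_out a b A).mono hs ht
    have hd2 : Disjoint (inE a b A \ (om ∩ inE a b A)) (bdE a b A) :=
      (disj_in_bd a b A).mono_left Finset.sdiff_subset
    have hd3 : Disjoint ((inE a b A \ (om ∩ inE a b A)) ∪ bdE a b A)
        (outE a b A \ (om ∩ outE a b A)) := by
      rw [Finset.disjoint_union_left]
      exact ⟨(disj_in_out a b A).mono Finset.sdiff_subset Finset.sdiff_subset,
        (disj_bd_out a b A).mono_right Finset.sdiff_subset⟩
    have hp1 : ∏ e ∈ om, op e = (∏ e ∈ om ∩ inE a b A, op e) * ∏ e ∈ om ∩ outE a b A, op e := by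
      conv_lhs => rw [hu]
      exact Finset.prod_union hd1
    simp only
    rw [← hu, hc, Finset.prod_union hd3, Finset.prod_union hd2, hp1]
    ring

/-- **decomposition along the clusters of `X`** (pointwise in the configuration). -/
theorem cls_decomp {R : Type*} [CommSemiring R] (a b : E → V) (op cl : E → R) (X : Finset V)
    (Φ : Finset V → R) :
    ∑ om : Finset E, (∏ e ∈ om, op e) * (∏ e ∈ omᶜ, cl e) * Φ (cls a b om X)
      = ∑ A : Finset V, insS a b op cl X A * (∏ e ∈ bdE a b A, cl e)
          * (∏ e ∈ outE a b A, (op e + cl e)) * Φ A := by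
  classical
  rw [← Finset.sum_fiberwise_of_maps_to (s := (univ : Finset (Finset E)))
    (t := (univ : Finset (Finset V))) (g := fun om => cls a b om X)
    (fun _ _ => Finset.mem_univ _)]
  refine Finset.sum_congr rfl (fun A _ => ?_)
  rw [← sum_cls_eq, Finset.sum_mul]
  refine Finset.sum_congr rfl (fun om hom => ?_)
  rw [(Finset.mem_filter.1 hom).2]

theorem insS_eq_zero {R : Type*} [CommSemiring R] (a b : E → V) (op cl : E → R) {X A : Finset V}
    (h : ¬ X ⊆ A) : insS a b op cl X A = 0 := by
  classical
  rw [insS]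
  apply Finset.sum_eq_zero
  intro om hom
  rw [Finset.mem_filter] at hom
  exact absurd (hom.2 ▸ sub_cls a b om X) h

end Vale.Agent.P159.TM.H60
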