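import Vale.Agent.P159.TM.H60.Swap
import Vale.Agent.P159.TM.H60.Cls
import Vale.Agent.P159.TM.H352.Mom

/-!
# Free arms (row R6 (A), 146's step (1))

`β, β'` weights carried by the disjoint sets `B, B'`, `F = <β,d>`, `F' = <β',d>`. On the event that
no open cluster meets both sets the signs of `F` and `F'` are independent, hence
`E F² ≤ E (F - F')² + E[F²; B ↔ B']`.
-/

open scoped ENNReal
open Finset

set_option linter.unusedSectionVars false
set_option linter.unusedDecidableInType false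

namespace Vale.Agent.P159.TM.H60

open Vale.Agent.P159.TM.H576

variable {V E S : Type*} [Fintype V] [DecidableEq V] [Fintype E] [DecidableEq E]

/-- some cluster of `om` meets `B` and `B'` -/
def Joins (s t : E → V) (om : Finset E) (B B' : Finset V) : Prop :=
  ∃ u ∈ B, ∃ v ∈ B', v ∈ clus s t om u

theorem Joins.mono {s t : E → V} {om om' : Finset E} {B B' : Finset V} (h : om ⊆ om')
    (hj : Joins s t om B B') : Joins s t om' B B' := by
  obtain ⟨u, hu, v, hv, hc⟩ := hj
  exact ⟨u, hu, v, hv, mem_clus.2 ((mem_clus.1 hc).mono h)⟩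

theorem Joins.symm {s t : E → V} {om : Finset E} {B B' : Finset V}
    (hj : Joins s t om B B') : Joins s t om B' B := by
  obtain ⟨u, hu, v, hv, hc⟩ := hj
  exact ⟨v, hv, u, hu, mem_clus.2 (mem_clus.1 hc).symm⟩

section

variable (σ : Sys V E S)

/-- sum over the open sets first -/
theorem Ex_om (F : (V → S) → Finset E → ℝ≥0∞) :
    Ex σ F = ∑ om : Finset E, ∑' x, ENNReal.ofReal (σ.wt om x) * F x om := by
  unfold Ex
  rw [← tsum_fintype (L := SummationFilter.unconditional _), ENNReal.tsum_comm]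
  refine tsum_congr fun x => ?_
  rw [tsum_fintype]

/-- flip of a union of clusters which depends on the open set only -/
theorem Ex_flip (A : Finset E → Finset V) (hA : ∀ om, Disjoint om (bdE σ.s σ.t (A om)))
    (F : (V → S) → Finset E → ℝ≥0∞) :
    Ex σ (fun x om => F (σ.flip (A om) x) om) = Ex σ F := by
  rw [Ex_om, Ex_om]
  exact Finset.sum_congr rfl fun om _ => H352.enn_flip σ (hA om) fun x => F x om

theorem pr_zero_off {β : V → ℝ} {B A : Finset V} (hβ : ∀ v, v ∉ B → β v = 0) (hA : Disjoint B A)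
    (x : V → S) : σ.pr β univ (σ.flip A x) = σ.pr β univ x := by
  unfold Sys.pr
  refine Finset.sum_congr rfl fun v _ => ?_
  by_cases hv : v ∈ B
  · rw [σ.D_flip_not_mem (Finset.disjoint_left.1 hA hv)]
  · rw [hβ v hv, zero_mul, zero_mul]

theorem pr_neg_on {β : V → ℝ} {B A : Finset V} (hβ : ∀ v, v ∉ B → β v = 0) (hA : B ⊆ A)
    (x : V → S) : σ.pr β univ (σ.flip A x) = -σ.pr β univ x := by
  unfold Sys.pr
  rw [← Finset.sum_neg_distrib]
  refine Finset.sum_congr rfl fun v _ => ?_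
  by_cases hv : v ∈ B
  · rw [σ.D_flip_mem (hA hv)]
    ring
  · rw [hβ v hv, zero_mul, zero_mul, neg_zero]

/-- **the second moment on the event that `B` and `B'` are not joined** -/
theorem not_joined {β β' : V → ℝ} {B B' : Finset V} (hβ : ∀ v, v ∉ B → β v = 0)
    (hβ' : ∀ v, v ∉ B' → β' v = 0) :
    Ex σ (fun x om => ENNReal.ofReal ((σ.pr β univ x) ^ 2) * ind (¬ Joins σ.s σ.t om B B'))
      ≤ Ex σ (fun x _ => ENNReal.ofReal ((σ.pr β univ x - σ.pr β' univ x) ^ 2)) := by
  set A : Finset E → Finset V := fun om => cls σ.s σ.t om B' with hA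
  have hAd : ∀ om, Disjoint om (bdE σ.s σ.t (A om)) := fun om => cls_no_bd rfl
  set F : (V → S) → Finset E → ℝ≥0∞ := fun x om =>
    ENNReal.ofReal ((σ.pr β univ x - σ.pr β' univ x) ^ 2) * ind (¬ Joins σ.s σ.t om B B') with hF
  have h1 : 2 * Ex σ (fun x om => ENNReal.ofReal ((σ.pr β univ x) ^ 2) *
      ind (¬ Joins σ.s σ.t om B B')) ≤ 2 * Ex σ F := by
    have h2 : 2 * Ex σ F = Ex σ (fun x om => F x om + F (σ.flip (A om) x) om) := by
      rw [Ex_add, Ex_flip σ A hAd, two_mul]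
    rw [h2, ← Ex_mul]
    refine Ex_mono fun x om _ => ?_
    by_cases hj : Joins σ.s σ.t om B B'
    · rw [ind_false (not_not.2 hj)]
      simp
    · have hd : Disjoint B (A om) := by
        rw [Finset.disjoint_left]
        intro u hu hu'
        obtain ⟨v, hv, hc⟩ := mem_cls.1 hu'
        exact hj ⟨u, hu, v, hv, mem_clus.2 hc.symm⟩
      simp only [hF]
      rw [ind_true hj, pr_zero_off σ hβ hd, pr_neg_on σ hβ' (sub_cls σ.s σ.t om B'), mul_one,
        mul_one, mul_one, ← ENNReal.ofReal_add (sq_nonneg _) (sq_nonneg _)]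
      rw [show (2 : ℝ≥0∞) = ENNReal.ofReal 2 by simp, ← ENNReal.ofReal_mul (by norm_num)]
      apply ENNReal.ofReal_le_ofReal
      nlinarith [sq_nonneg (σ.pr β' univ x)]
  have h3 : Ex σ (fun x om => ENNReal.ofReal ((σ.pr β univ x) ^ 2) *
      ind (¬ Joins σ.s σ.t om B B')) ≤ Ex σ F :=
    (ENNReal.mul_le_mul_iff_right (by norm_num) (by norm_num)).1 h1
  refine h3.trans (Ex_mono fun x om _ => ?_)
  simp only [hF]
  exact mul_le_of_le_one_right (zero_le) (ind_le_one _)

/-- **free arms**: `P(B ↔ B') ≥ 1/(4K)` -/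
theorem arm {β β' : V → ℝ} {B B' : Finset V} (hβ : ∀ v, v ∉ B → β v = 0)
    (hβ' : ∀ v, v ∉ B' → β' v = 0) {W K : ℝ} (hW : 0 < W) (hK : 0 < K)
    (hZ : Ex σ (fun _ _ => 1) ≠ ∞)
    (h2 : ENNReal.ofReal W * Ex σ (fun _ _ => 1) ≤
      Ex σ (fun x _ => ENNReal.ofReal ((σ.pr β univ x) ^ 2)))
    (hI : Ex σ (fun x _ => ENNReal.ofReal ((σ.pr β univ x - σ.pr β' univ x) ^ 2)) ≤
      ENNReal.ofReal (W / 2) * Ex σ (fun _ _ => 1))
    (h4 : Ex σ (fun x _ => ENNReal.ofReal ((σ.pr β univ x) ^ 4)) ≤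
      ENNReal.ofReal (K * W ^ 2) * Ex σ (fun _ _ => 1)) :
    Ex σ (fun _ _ => 1) ≤
      ENNReal.ofReal (4 * K) * Ex σ (fun _ om => ind (Joins σ.s σ.t om B B')) := by
  set Z := Ex σ (fun _ _ => 1) with hZd
  set J := Ex σ (fun _ om => ind (Joins σ.s σ.t om B B')) with hJ
  have e1 : Ex σ (fun x _ => ENNReal.ofReal ((σ.pr β univ x) ^ 2)) =
      Ex σ (fun x om => ENNReal.ofReal ((σ.pr β univ x) ^ 2) * ind (¬ Joins σ.s σ.t om B B')) +
      Ex σ (fun x om => ENNReal.ofReal ((σ.pr β univ x) ^ 2) * ind (Joins σ.s σ.t om B B')) := by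
    rw [← Ex_add]
    refine Ex_congr fun x om _ => ?_
    by_cases hj : Joins σ.s σ.t om B B'
    · rw [ind_false (not_not.2 hj), ind_true hj]; simp
    · rw [ind_true hj, ind_false hj]; simp
  have e2 : Ex σ (fun x om => ENNReal.ofReal ((σ.pr β univ x) ^ 2) * ind (Joins σ.s σ.t om B B'))
      ≤ ENNReal.ofReal (1 / (4 * K * W)) *
          Ex σ (fun x _ => ENNReal.ofReal ((σ.pr β univ x) ^ 4)) + ENNReal.ofReal (K * W) * J := by
    rw [hJ, ← Ex_mul, ← Ex_mul, ← Ex_add]
    refine Ex_mono fun x om _ => ?_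
    by_cases hj : Joins σ.s σ.t om B B'
    · rw [ind_true hj, mul_one, mul_one, ← ENNReal.ofReal_mul (by positivity),
        ← ENNReal.ofReal_add (by positivity) (by positivity)]
      apply ENNReal.ofReal_le_ofReal
      set y := (σ.pr β univ x) ^ 2 with hy
      have h5 : (σ.pr β univ x) ^ 4 = y ^ 2 := by rw [hy]; ring
      rw [h5]
      have h6 : 1 / (4 * K * W) * y ^ 2 + K * W - y = (y - 2 * K * W) ^ 2 / (4 * K * W) := by
        field_simp
        ring
      have h7 : 0 ≤ (y - 2 * K * W) ^ 2 / (4 * K * W) := by positivity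
      linarith
    · rw [ind_false hj, mul_zero, mul_zero, add_zero]
      exact zero_le
  have e3 : ENNReal.ofReal (1 / (4 * K * W)) *
      Ex σ (fun x _ => ENNReal.ofReal ((σ.pr β univ x) ^ 4)) ≤ ENNReal.ofReal (W / 4) * Z := by
    refine (mul_le_mul_right h4 _).trans (le_of_eq ?_)
    rw [← mul_assoc, ← ENNReal.ofReal_mul (by positivity)]
    congr 2
    field_simp
  have e4 : ENNReal.ofReal W * Z ≤ ENNReal.ofReal (W / 2) * Z +
      (ENNReal.ofReal (W / 4) * Z + ENNReal.ofReal (K * W) * J) := by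
    refine h2.trans ?_
    rw [e1]
    exact add_le_add ((not_joined σ hβ hβ').trans hI) (e2.trans (add_le_add e3 le_rfl))
  have e5 : ENNReal.ofReal W * Z = ENNReal.ofReal (3 * W / 4) * Z + ENNReal.ofReal (W / 4) * Z := by
    rw [← add_mul, ← ENNReal.ofReal_add (by positivity) (by positivity)]
    congr 2
    ring
  have e6 : ENNReal.ofReal (W / 2) * Z + (ENNReal.ofReal (W / 4) * Z + ENNReal.ofReal (K * W) * J)
      = ENNReal.ofReal (3 * W / 4) * Z + ENNReal.ofReal (K * W) * J := by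
    rw [← add_assoc, ← add_mul, ← ENNReal.ofReal_add (by positivity) (by positivity)]
    congr 3
    ring
  rw [e5, e6] at e4
  have e7 : ENNReal.ofReal (W / 4) * Z ≤ ENNReal.ofReal (K * W) * J :=
    (ENNReal.add_le_add_iff_left (ENNReal.mul_ne_top ENNReal.ofReal_ne_top hZ)).1 e4
  have e8 := mul_le_mul_right e7 (ENNReal.ofReal (4 / W))
  rw [← mul_assoc, ← mul_assoc, ← ENNReal.ofReal_mul (by positivity),
    ← ENNReal.ofReal_mul (by positivity)] at e8
  have e9 : 4 / W * (W / 4) = 1 := by field_simp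
  have e10 : 4 / W * (K * W) = 4 * K := by field_simp
  rw [e9, e10, ENNReal.ofReal_one, one_mul] at e8
  exact e8

/-- **positive arms**: the cluster may be taken positive -/
theorem joins_plus {B B' : Finset V} (hBB : Disjoint B B') :
    Ex σ (fun _ om => ind (Joins σ.s σ.t om B B')) ≤
      2 * Ex σ (fun x om => ind (Joins σ.s σ.t (plus σ x om) B B')) := by
  have h1 : 2 * Ex σ (fun x om => ind (Joins σ.s σ.t (plus σ x om) B B')) =
      Ex σ (fun x om => ind (Joins σ.s σ.t (plus σ x om) B B') +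
        ind (Joins σ.s σ.t (plus σ (fun v => σ.sw (x v)) om) B B')) := by
    rw [Ex_add, Ex_swap (fun x om => ind (Joins σ.s σ.t (plus σ x om) B B')), two_mul]
  rw [h1]
  refine Ex_mono fun x om hw => ?_
  by_cases hj : Joins σ.s σ.t om B B'
  · rw [ind_true hj]
    obtain ⟨u, hu, v, hv, hc⟩ := hj
    have hne : u ≠ v := fun h => Finset.disjoint_left.1 hBB hu (h ▸ hv)
    rcases σ.sign_conn hw (mem_clus.1 hc) with h | h
    · exact absurd h hne
    rcases pos_and_pos_or_neg_and_neg_of_mul_pos h with ⟨h2, _⟩ | ⟨h2, _⟩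
    · rw [ind_true ⟨u, hu, v, hv, mem_clus.2 (conn_plus hw h2 (mem_clus.1 hc)).1⟩]
      exact le_self_add
    · have hw' : σ.wt om (fun v => σ.sw (x v)) ≠ 0 := by
        have h3 := σ.wt_flip (om := om) (A := Finset.univ) (by
          rw [Finset.disjoint_left]
          intro e _ he
          rw [mem_bdE] at he
          exact he (by simp)) x
        have h4 : σ.flip Finset.univ x = fun v => σ.sw (x v) := by
          funext v
          exact σ.flip_mem (Finset.mem_univ v)
        rw [h4] at h3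
        rwa [h3]
      have h5 : 0 < σ.d ((fun v => σ.sw (x v)) u) := by
        show 0 < σ.d (σ.sw (x u))
        rw [σ.d_sw]
        linarith
      rw [ind_true (p := Joins σ.s σ.t (plus σ (fun v => σ.sw (x v)) om) B B')
        ⟨u, hu, v, hv, mem_clus.2 (conn_plus hw' h5 (mem_clus.1 hc)).1⟩]
      exact le_add_self
  · rw [ind_false hj]
    exact zero_le

/-- **positive free arms**: `P(B ↔ B' by positive open edges) ≥ 1/(8K)` -/
theorem arm_plus {β β' : V → ℝ} {B B' : Finset V} (hβ : ∀ v, v ∉ B → β v = 0)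
    (hβ' : ∀ v, v ∉ B' → β' v = 0) (hBB : Disjoint B B') {W K : ℝ} (hW : 0 < W) (hK : 0 < K)
    (hZ : Ex σ (fun _ _ => 1) ≠ ∞)
    (h2 : ENNReal.ofReal W * Ex σ (fun _ _ => 1) ≤
      Ex σ (fun x _ => ENNReal.ofReal ((σ.pr β univ x) ^ 2)))
    (hI : Ex σ (fun x _ => ENNReal.ofReal ((σ.pr β univ x - σ.pr β' univ x) ^ 2)) ≤
      ENNReal.ofReal (W / 2) * Ex σ (fun _ _ => 1))
    (h4 : Ex σ (fun x _ => ENNReal.ofReal ((σ.pr β univ x) ^ 4)) ≤
      ENNReal.ofReal (K * W ^ 2) * Ex σ (fun _ _ => 1)) :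
    Ex σ (fun _ _ => 1) ≤
      ENNReal.ofReal (8 * K) * Ex σ (fun x om => ind (Joins σ.s σ.t (plus σ x om) B B')) := by
  refine (arm σ hβ hβ' hW hK hZ h2 hI h4).trans ?_
  refine (mul_le_mul_right (joins_plus σ hBB) _).trans (le_of_eq ?_)
  rw [← mul_assoc]
  congr 1
  rw [show (2 : ℝ≥0∞) = ENNReal.ofReal 2 by simp, ← ENNReal.ofReal_mul (by positivity)]
  congr 1
  ring

end

end Vale.Agent.P159.TM.H60
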