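import Vale.Agent.P159.TM.H60.FK

/-!
Fair signs of the clusters: `E[Y² e^{<τ,d>}]` is bounded below by the sum over the clusters of
`X_C² cosh <τ,|d|>_C e^{<τ,d> off C}`; equality for `τ = 0`.
-/

open Finset

set_option linter.unusedSectionVars false
set_option linter.unusedDecidableInType false

namespace Vale.Agent.P159.TM.H60

namespace Sys

variable {V E S : Type*} [Fintype V] [DecidableEq V] [Fintype E] [DecidableEq E] (σ : Sys V E S)

/-- `d` as a real number -/
def D (x : V → S) (v : V) : ℝ := (σ.d (x v) : ℝ)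

/-- `<τ, d>` on the set `A` -/
noncomputable def pr (τ : V → ℝ) (A : Finset V) (x : V → S) : ℝ := ∑ v ∈ A, τ v * σ.D x v

/-- `<τ, |d|>` on the set `A` -/
noncomputable def pa (τ : V → ℝ) (A : Finset V) (x : V → S) : ℝ := ∑ v ∈ A, τ v * |σ.D x v|

theorem D_flip_mem {A : Finset V} {x : V → S} {v : V} (h : v ∈ A) :
    σ.D (σ.flip A x) v = -σ.D x v := by
  unfold D
  rw [σ.flip_mem h, σ.d_sw]
  push_cast
  rfl

theorem D_flip_not_mem {A : Finset V} {x : V → S} {v : V} (h : v ∉ A) :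
    σ.D (σ.flip A x) v = σ.D x v := by
  unfold D
  rw [σ.flip_not_mem h]

theorem abs_D_flip (A : Finset V) (x : V → S) (v : V) :
    |σ.D (σ.flip A x) v| = |σ.D x v| := by
  by_cases h : v ∈ A
  · rw [σ.D_flip_mem h, abs_neg]
  · rw [σ.D_flip_not_mem h]

theorem pr_flip_sub {A B : Finset V} (h : B ⊆ A) (τ : V → ℝ) (x : V → S) :
    σ.pr τ B (σ.flip A x) = -σ.pr τ B x := by
  unfold pr
  rw [← Finset.sum_neg_distrib]
  refine Finset.sum_congr rfl fun v hv => ?_
  rw [σ.D_flip_mem (h hv)]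
  ring

theorem pr_flip_disj {A B : Finset V} (h : Disjoint B A) (τ : V → ℝ) (x : V → S) :
    σ.pr τ B (σ.flip A x) = σ.pr τ B x := by
  unfold pr
  refine Finset.sum_congr rfl fun v hv => ?_
  rw [σ.D_flip_not_mem (Finset.disjoint_left.1 h hv)]

theorem pr_split (τ : V → ℝ) (A : Finset V) (x : V → S) :
    σ.pr τ univ x = σ.pr τ A x + σ.pr τ Aᶜ x := by
  unfold pr
  exact (Finset.sum_add_sum_compl A _).symm

theorem pr_union {A B : Finset V} (h : Disjoint A B) (τ : V → ℝ) (x : V → S) :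
    σ.pr τ (A ∪ B) x = σ.pr τ A x + σ.pr τ B x := Finset.sum_union h

/-- sign on the cluster -/
theorem D_sign {om : Finset E} {x : V → S} (h : σ.wt om x ≠ 0) {u v : V}
    (hc : Conn σ.s σ.t om u v) : σ.D x v = (SignType.sign (σ.D x u) : ℝ) * |σ.D x v| := by
  rcases σ.sign_conn h hc with rfl | h1
  · exact (sign_mul_abs _).symm
  · have h2 : 0 < σ.D x u * σ.D x v := by
      unfold D
      exact_mod_cast h1
    rcases pos_and_pos_or_neg_and_neg_of_mul_pos h2 with ⟨h3, h4⟩ | ⟨h3, h4⟩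
    · rw [sign_pos h3, abs_of_pos h4]
      simp
    · rw [sign_neg h3, abs_of_neg h4]
      simp

theorem pr_sign {om : Finset E} {x : V → S} (h : σ.wt om x ≠ 0) (τ : V → ℝ) (u : V) :
    σ.pr τ (clus σ.s σ.t om u) x
      = (SignType.sign (σ.D x u) : ℝ) * σ.pa τ (clus σ.s σ.t om u) x := by
  unfold pr pa
  rw [Finset.mul_sum]
  refine Finset.sum_congr rfl fun v hv => ?_
  have h1 := σ.D_sign h (mem_clus.1 hv)
  calc τ v * σ.D x v = τ v * ((SignType.sign (σ.D x u) : ℝ) * |σ.D x v|) := by rw [← h1]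
    _ = (SignType.sign (σ.D x u) : ℝ) * (τ v * |σ.D x v|) := by ring

theorem pa_nonneg {τ : V → ℝ} (hτ : ∀ v, 0 ≤ τ v) (A : Finset V) (x : V → S) :
    0 ≤ σ.pa τ A x :=
  Finset.sum_nonneg fun v _ => mul_nonneg (hτ v) (abs_nonneg _)

/-- `d_u d_v = |d_u| |d_v|` on a cluster -/
theorem D_mul {om : Finset E} {x : V → S} (h : σ.wt om x ≠ 0) {u v : V}
    (hc : Conn σ.s σ.t om u v) : σ.D x u * σ.D x v = |σ.D x u| * |σ.D x v| := by
  rw [σ.D_sign h hc, abs_mul, abs_abs]
  rcases eq_or_ne (σ.D x u) 0 with h0 | h0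
  · simp [h0]
  · have h1 : |(SignType.sign (σ.D x u) : ℝ)| = 1 := by
      rcases lt_or_gt_of_ne h0 with h2 | h2
      · rw [sign_neg h2]; simp
      · rw [sign_pos h2]; simp
    rw [h1, one_mul, ← mul_assoc, mul_comm (σ.D x u), sign_mul_self]

/-! ### flips inside the sums -/

theorem tsum_flip {om : Finset E} {A : Finset V} (h : Disjoint om (bdE σ.s σ.t A))
    (F : (V → S) → ℝ) :
    ∑' x, σ.wt om x * F (σ.flip A x) = ∑' x, σ.wt om x * F x := by
  rw [← (σ.flipE A).tsum_eq (fun x => σ.wt om x * F x)]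
  refine tsum_congr fun x => ?_
  show _ = σ.wt om (σ.flip A x) * F (σ.flip A x)
  rw [σ.wt_flip h]

theorem summable_flip {om : Finset E} {A : Finset V} (h : Disjoint om (bdE σ.s σ.t A))
    {F : (V → S) → ℝ} (hF : Summable fun x => σ.wt om x * F x) :
    Summable fun x => σ.wt om x * F (σ.flip A x) := by
  have h1 := (σ.flipE A).summable_iff.2 hF
  refine h1.congr fun x => ?_
  show σ.wt om (σ.flip A x) * F (σ.flip A x) = _
  rw [σ.wt_flip h]

theorem tsum_symm {om : Finset E} {A : Finset V} (h : Disjoint om (bdE σ.s σ.t A))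
    {F : (V → S) → ℝ} (hF : Summable fun x => σ.wt om x * F x) :
    ∑' x, σ.wt om x * F x = ∑' x, σ.wt om x * ((F x + F (σ.flip A x)) / 2) := by
  have h1 := σ.tsum_flip h F
  have h2 : ∑' x, σ.wt om x * ((F x + F (σ.flip A x)) / 2)
      = (∑' x, σ.wt om x * F x + ∑' x, σ.wt om x * F (σ.flip A x)) / 2 := by
    rw [← hF.tsum_add (σ.summable_flip h hF), ← tsum_div_const]
    exact tsum_congr fun x => by ring
  rw [h2, h1]
  ring

theorem summable_symm {om : Finset E} {A : Finset V} (h : Disjoint om (bdE σ.s σ.t A))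
    {F : (V → S) → ℝ} (hF : Summable fun x => σ.wt om x * F x) :
    Summable fun x => σ.wt om x * ((F x + F (σ.flip A x)) / 2) := by
  have h1 := (hF.add (σ.summable_flip h hF)).div_const 2
  exact h1.congr fun x => by ring

theorem disj_clus (om : Finset E) (u : V) :
    Disjoint om (bdE σ.s σ.t (clus σ.s σ.t om u)) := clus_no_bd rfl

/-- the summand of the two point function with a tilt -/
noncomputable def F2 (τ : V → ℝ) (u v : V) (x : V → S) : ℝ :=
  σ.D x u * σ.D x v * Real.exp (σ.pr τ univ x)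

/-- what it becomes on a cluster `C` -/
noncomputable def K2 (τ : V → ℝ) (u v : V) (C : Finset V) (x : V → S) : ℝ :=
  |σ.D x u| * |σ.D x v| * Real.cosh (σ.pa τ C x) * Real.exp (σ.pr τ Cᶜ x)

theorem K2_nonneg (τ : V → ℝ) (u v : V) (C : Finset V) (x : V → S) : 0 ≤ σ.K2 τ u v C x := by
  unfold K2
  have := Real.cosh_pos (σ.pa τ C x)
  positivity

theorem summable_wt_of_tot {om : Finset E} {F : (V → S) → ℝ}
    (hS : Summable fun x => σ.tot x * |F x|) : Summable fun x => σ.wt om x * F x := by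
  refine Summable.of_norm_bounded hS fun x => ?_
  rw [Real.norm_eq_abs, abs_mul, abs_of_nonneg (σ.wt_nonneg om x)]
  exact mul_le_mul_of_nonneg_right (σ.wt_le om x) (abs_nonneg _)

theorem F2_symm {om : Finset E} (τ : V → ℝ) {u v : V} (hc : Conn σ.s σ.t om u v) (x : V → S) :
    σ.wt om x * ((σ.F2 τ u v x + σ.F2 τ u v (σ.flip (clus σ.s σ.t om u) x)) / 2)
      = σ.wt om x * σ.K2 τ u v (clus σ.s σ.t om u) x := by
  rcases eq_or_ne (σ.wt om x) 0 with h0 | h0
  · rw [h0, zero_mul, zero_mul]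
  congr 1
  set C := clus σ.s σ.t om u with hC
  have hu : u ∈ C := self_mem_clus u
  have hv : v ∈ C := mem_clus.2 hc
  have hd : Disjoint Cᶜ C := disjoint_compl_left
  unfold F2 K2
  rw [σ.D_flip_mem hu, σ.D_flip_mem hv, σ.pr_split τ C, σ.pr_split τ C (σ.flip C x),
    σ.pr_flip_sub (Finset.Subset.refl C), σ.pr_flip_disj hd, neg_mul_neg, σ.D_mul h0 hc,
    Real.exp_add, Real.exp_add]
  have h1 : |σ.D x u| * Real.cosh (σ.pr τ C x) = |σ.D x u| * Real.cosh (σ.pa τ C x) := by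
    rw [hC, σ.pr_sign h0 τ u]
    rcases lt_trichotomy (σ.D x u) 0 with h | h | h
    · rw [sign_neg h]; simp
    · rw [h]; simp
    · rw [sign_pos h]; simp
  have h2 : (|σ.D x u| * |σ.D x v| * (Real.exp (σ.pr τ C x) * Real.exp (σ.pr τ Cᶜ x))
      + |σ.D x u| * |σ.D x v| * (Real.exp (-σ.pr τ C x) * Real.exp (σ.pr τ Cᶜ x))) / 2
      = |σ.D x v| * (|σ.D x u| * Real.cosh (σ.pr τ C x)) * Real.exp (σ.pr τ Cᶜ x) := by
    rw [Real.cosh_eq]; ring
  rw [h2, h1]
  ring

/-- two points of the same cluster -/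
theorem tsum_same {om : Finset E} (τ : V → ℝ) {u v : V} (hc : Conn σ.s σ.t om u v)
    (hS : Summable fun x => σ.tot x * |σ.F2 τ u v x|) :
    ∑' x, σ.wt om x * σ.F2 τ u v x
      = ∑' x, σ.wt om x * σ.K2 τ u v (clus σ.s σ.t om u) x := by
  rw [σ.tsum_symm (σ.disj_clus om u) (σ.summable_wt_of_tot hS)]
  exact tsum_congr fun x => σ.F2_symm τ hc x

theorem summable_same {om : Finset E} (τ : V → ℝ) {u v : V} (hc : Conn σ.s σ.t om u v)
    (hS : Summable fun x => σ.tot x * |σ.F2 τ u v x|) :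
    Summable fun x => σ.wt om x * σ.K2 τ u v (clus σ.s σ.t om u) x :=
  (σ.summable_symm (σ.disj_clus om u) (σ.summable_wt_of_tot hS)).congr
    fun x => σ.F2_symm τ hc x

theorem clus_disj {om : Finset E} {u v : V} (hc : ¬ Conn σ.s σ.t om u v) :
    Disjoint (clus σ.s σ.t om u) (clus σ.s σ.t om v) := by
  rw [Finset.disjoint_left]
  intro w h1 h2
  rw [mem_clus] at h1 h2
  exact hc (h1.trans h2.symm)

/-- sign times hyperbolic sine -/
theorem D_sinh_nonneg {om : Finset E} {x : V → S} (h : σ.wt om x ≠ 0) {τ : V → ℝ}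
    (hτ : ∀ v, 0 ≤ τ v) (u : V) :
    0 ≤ σ.D x u * Real.sinh (σ.pr τ (clus σ.s σ.t om u) x) := by
  rw [σ.pr_sign h τ u]
  have hp := σ.pa_nonneg hτ (clus σ.s σ.t om u) x
  rcases lt_trichotomy (σ.D x u) 0 with h1 | h1 | h1
  · rw [sign_neg h1]
    have : Real.sinh (((-1 : SignType) : ℝ) * σ.pa τ (clus σ.s σ.t om u) x) ≤ 0 := by
      rw [Real.sinh_nonpos_iff]
      simpa using hp
    exact mul_nonneg_of_nonpos_of_nonpos h1.le this
  · rw [h1]; simp
  · rw [sign_pos h1]
    have : 0 ≤ Real.sinh (((1 : SignType) : ℝ) * σ.pa τ (clus σ.s σ.t om u) x) := by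
      rw [Real.sinh_nonneg_iff]
      simpa using hp
    exact mul_nonneg h1.le this

/-- two points of different clusters -/
theorem tsum_diff {om : Finset E} {τ : V → ℝ} (hτ : ∀ v, 0 ≤ τ v) {u v : V}
    (hc : ¬ Conn σ.s σ.t om u v) (hS : Summable fun x => σ.tot x * |σ.F2 τ u v x|) :
    0 ≤ ∑' x, σ.wt om x * σ.F2 τ u v x := by
  set C := clus σ.s σ.t om u with hC
  set C' := clus σ.s σ.t om v with hC'
  have hd : Disjoint C C' := σ.clus_disj hc
  have hu : u ∈ C := self_mem_clus u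
  have hv : v ∈ C' := self_mem_clus v
  have hu' : u ∉ C' := Finset.disjoint_left.1 hd hu
  have hv' : v ∉ C := Finset.disjoint_right.1 hd hv
  have s0 := σ.summable_wt_of_tot (om := om) hS
  rw [σ.tsum_symm (σ.disj_clus om u) s0]
  have s1 := σ.summable_symm (σ.disj_clus om u) s0
  rw [σ.tsum_symm (σ.disj_clus om v) s1]
  refine tsum_nonneg fun x => ?_
  rcases eq_or_ne (σ.wt om x) 0 with h0 | h0
  · rw [h0, zero_mul]
  refine mul_nonneg (σ.wt_nonneg om x) ?_
  rw [← hC, ← hC']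
  -- the rest
  set R : Finset V := (C ∪ C')ᶜ with hR
  have hpr : ∀ y : V → S, σ.pr τ univ y = σ.pr τ C y + σ.pr τ C' y + σ.pr τ R y := by
    intro y
    rw [σ.pr_split τ (C ∪ C'), σ.pr_union hd]
  have hRC : Disjoint R C := by
    rw [hR]
    exact (disjoint_compl_left).mono_right Finset.subset_union_left
  have hRC' : Disjoint R C' := by
    rw [hR]
    exact (disjoint_compl_left).mono_right Finset.subset_union_right
  have e1 : σ.F2 τ u v x = σ.D x u * σ.D x v *
      (Real.exp (σ.pr τ C x) * Real.exp (σ.pr τ C' x) * Real.exp (σ.pr τ R x)) := by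
    unfold F2
    rw [hpr, Real.exp_add, Real.exp_add]
  have e2 : σ.F2 τ u v (σ.flip C x) = -(σ.D x u * σ.D x v) *
      (Real.exp (-σ.pr τ C x) * Real.exp (σ.pr τ C' x) * Real.exp (σ.pr τ R x)) := by
    unfold F2
    rw [hpr, Real.exp_add, Real.exp_add, σ.pr_flip_sub (Finset.Subset.refl C),
      σ.pr_flip_disj hd.symm, σ.pr_flip_disj hRC, σ.D_flip_mem hu, σ.D_flip_not_mem hv']
    ring
  have e3 : σ.F2 τ u v (σ.flip C' x) = -(σ.D x u * σ.D x v) *
      (Real.exp (σ.pr τ C x) * Real.exp (-σ.pr τ C' x) * Real.exp (σ.pr τ R x)) := by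
    unfold F2
    rw [hpr, Real.exp_add, Real.exp_add, σ.pr_flip_sub (Finset.Subset.refl C'),
      σ.pr_flip_disj hd, σ.pr_flip_disj hRC', σ.D_flip_mem hv, σ.D_flip_not_mem hu']
    ring
  have e4 : σ.F2 τ u v (σ.flip C (σ.flip C' x)) = (σ.D x u * σ.D x v) *
      (Real.exp (-σ.pr τ C x) * Real.exp (-σ.pr τ C' x) * Real.exp (σ.pr τ R x)) := by
    unfold F2
    rw [hpr, Real.exp_add, Real.exp_add, σ.pr_flip_sub (Finset.Subset.refl C),
      σ.pr_flip_disj hd.symm, σ.pr_flip_disj hRC, σ.D_flip_mem hu, σ.D_flip_not_mem hv',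
      σ.pr_flip_sub (Finset.Subset.refl C'), σ.pr_flip_disj hd, σ.pr_flip_disj hRC',
      σ.D_flip_mem hv, σ.D_flip_not_mem hu']
    ring
  have e5 : (((σ.F2 τ u v x + σ.F2 τ u v (σ.flip C x)) / 2
      + (σ.F2 τ u v (σ.flip C' x) + σ.F2 τ u v (σ.flip C (σ.flip C' x))) / 2) / 2)
      = (σ.D x u * Real.sinh (σ.pr τ C x)) * (σ.D x v * Real.sinh (σ.pr τ C' x))
        * Real.exp (σ.pr τ R x) := by
    rw [e1, e2, e3, e4, Real.sinh_eq, Real.sinh_eq]
    ring
  rw [e5]
  exact mul_nonneg (mul_nonneg (σ.D_sinh_nonneg h0 hτ u) (σ.D_sinh_nonneg h0 hτ v))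
    (Real.exp_pos _).le

/-- two points of different clusters without tilt -/
theorem tsum_diff_zero {om : Finset E} {u v : V} (hc : ¬ Conn σ.s σ.t om u v) :
    ∑' x, σ.wt om x * (σ.D x u * σ.D x v) = 0 := by
  have h1 := σ.tsum_flip (σ.disj_clus om u) (fun x => σ.D x u * σ.D x v)
  have hv' : v ∉ clus σ.s σ.t om u := fun h => hc (mem_clus.1 h)
  have h2 : ∑' x, σ.wt om x * (σ.D (σ.flip (clus σ.s σ.t om u) x) u
      * σ.D (σ.flip (clus σ.s σ.t om u) x) v)
      = -∑' x, σ.wt om x * (σ.D x u * σ.D x v) := by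
    rw [← tsum_neg]
    refine tsum_congr fun x => ?_
    rw [σ.D_flip_mem (self_mem_clus u), σ.D_flip_not_mem hv']
    ring
  rw [h2] at h1
  linarith

/-- two points of the same cluster without tilt -/
theorem tsum_same_zero {om : Finset E} {u v : V} (hc : Conn σ.s σ.t om u v) :
    ∑' x, σ.wt om x * (σ.D x u * σ.D x v) = ∑' x, σ.wt om x * (|σ.D x u| * |σ.D x v|) := by
  refine tsum_congr fun x => ?_
  rcases eq_or_ne (σ.wt om x) 0 with h0 | h0
  · rw [h0, zero_mul, zero_mul]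
  · rw [σ.D_mul h0 hc]

open Classical in
/-- **two point function** -/
theorem tsum_two {u v : V} (hS : Summable fun x => σ.tot x * (|σ.D x u| * |σ.D x v|)) :
    ∑' x, σ.tot x * (σ.D x u * σ.D x v)
      = ∑ om : Finset E, if v ∈ clus σ.s σ.t om u then
          ∑' x, σ.wt om x * (|σ.D x u| * |σ.D x v|) else 0 := by
  have hS' : Summable fun x => σ.tot x * |σ.D x u * σ.D x v| := by
    simpa only [abs_mul] using hS
  have h1 : ∀ x, σ.tot x * (σ.D x u * σ.D x v)
      = ∑ om : Finset E, σ.wt om x * (σ.D x u * σ.D x v) := by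
    intro x
    rw [← σ.sum_wt, Finset.sum_mul]
  rw [tsum_congr h1, Summable.tsum_finsetSum fun om _ => σ.summable_wt_of_tot hS']
  refine Finset.sum_congr rfl fun om _ => ?_
  split_ifs with h
  · exact σ.tsum_same_zero (mem_clus.1 h)
  · exact σ.tsum_diff_zero fun hc => h (mem_clus.2 hc)

open Classical in
/-- **fair signs, lower bound with a tilt**: for `β, τ ≥ 0` and any set `Φ` of clusters. -/
theorem swap_lower {β τ : V → ℝ} (hβ : ∀ v, 0 ≤ β v) (hτ : ∀ v, 0 ≤ τ v)
    (Φ : Finset V → Prop)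
    (hS : ∀ u v, Summable fun x => σ.tot x * |σ.F2 τ u v x|) :
    ∑ om : Finset E, ∑ u, ∑ v ∈ clus σ.s σ.t om u,
        (if Φ (clus σ.s σ.t om u) then
          β u * β v * ∑' x, σ.wt om x * σ.K2 τ u v (clus σ.s σ.t om u) x else 0)
      ≤ ∑' x, σ.tot x * ((∑ u, β u * σ.D x u) ^ 2 * Real.exp (σ.pr τ univ x)) := by
  have h1 : ∀ x, σ.tot x * ((∑ u, β u * σ.D x u) ^ 2 * Real.exp (σ.pr τ univ x))
      = ∑ om : Finset E, ∑ u, ∑ v, β u * β v * (σ.wt om x * σ.F2 τ u v x) := by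
    intro x
    have h2 : (∑ u, β u * σ.D x u) ^ 2 * Real.exp (σ.pr τ univ x)
        = ∑ u, ∑ v, β u * β v * σ.F2 τ u v x := by
      rw [sq, Finset.sum_mul_sum, Finset.sum_mul]
      refine Finset.sum_congr rfl fun u _ => ?_
      rw [Finset.sum_mul]
      refine Finset.sum_congr rfl fun v _ => ?_
      unfold F2
      ring
    rw [h2, ← σ.sum_wt, Finset.sum_mul]
    refine Finset.sum_congr rfl fun om _ => ?_
    rw [Finset.mul_sum]
    refine Finset.sum_congr rfl fun u _ => ?_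
    rw [Finset.mul_sum]
    refine Finset.sum_congr rfl fun v _ => ?_
    ring
  have hs : ∀ (om : Finset E) (u v : V), Summable fun x => β u * β v * (σ.wt om x * σ.F2 τ u v x) :=
    fun om u v => (σ.summable_wt_of_tot (hS u v)).mul_left _
  rw [tsum_congr h1, Summable.tsum_finsetSum fun om _ =>
    summable_sum fun u _ => summable_sum fun v _ => hs om u v]
  refine Finset.sum_le_sum fun om _ => ?_
  rw [Summable.tsum_finsetSum fun u _ => summable_sum fun v _ => hs om u v]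
  refine Finset.sum_le_sum fun u _ => ?_
  rw [Summable.tsum_finsetSum fun v _ => hs om u v]
  have e1 : ∀ v, ∑' x, β u * β v * (σ.wt om x * σ.F2 τ u v x)
      = β u * β v * ∑' x, σ.wt om x * σ.F2 τ u v x := fun v => tsum_mul_left
  simp only [e1]
  refine le_trans (Finset.sum_le_sum (g := fun v => β u * β v * ∑' x, σ.wt om x * σ.F2 τ u v x)
    fun v hv => ?_) (Finset.sum_le_sum_of_subset_of_nonneg (Finset.subset_univ _)
      fun v _ hv => ?_)
  · rw [σ.tsum_same τ (mem_clus.1 hv) (hS u v)]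
    split_ifs with hΦ
    · exact le_rfl
    · exact mul_nonneg (mul_nonneg (hβ u) (hβ v))
        (tsum_nonneg fun x => mul_nonneg (σ.wt_nonneg om x) (σ.K2_nonneg _ _ _ _ _))
  · exact mul_nonneg (mul_nonneg (hβ u) (hβ v))
      (σ.tsum_diff hτ (fun hc => hv (mem_clus.2 hc)) (hS u v))

end Sys

end Vale.Agent.P159.TM.H60
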