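import Vale.Agent.P159.TM.H60.Clus
import Vale.Agent.P159.T1.H897.Fkg

/-!
The FK form of a swap invariant system on a finite graph: open / closed edge weights, expansion over
the sets of open edges, invariance under the swap of a union of clusters, sign of `d` on clusters.

`S` is the state space of a site (`ℤ × ℤ` for two copies, `ℤ` for one copy without background),
`sw` the swap, `d` the odd observable.
-/

open Finset

set_option linter.unusedSectionVars false
set_option linter.unusedDecidableInType false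

namespace Vale.Agent.P159.TM.H60

/-- a swap invariant system -/
structure Sys (V E S : Type*) where
  /-- the end points -/
  s : E → V
  /-- the end points -/
  t : E → V
  /-- the swap -/
  sw : S → S
  /-- the odd observable -/
  d : S → ℤ
  /-- full edge weight -/
  fl : E → S → S → ℝ
  /-- site weight -/
  g : V → S → ℝ
  sw_sw : ∀ x, sw (sw x) = x
  d_sw : ∀ x, d (sw x) = -d x
  fl_nonneg : ∀ e x y, 0 ≤ fl e x y
  fl_sw : ∀ e x y, fl e (sw x) (sw y) = fl e x y
  fl_le : ∀ e x y, d x * d y ≤ 0 → fl e x y ≤ fl e (sw x) y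
  g_nonneg : ∀ v x, 0 ≤ g v x
  g_sw : ∀ v x, g v (sw x) = g v x

namespace Sys

section basic
variable {V E S : Type*} (σ : Sys V E S)

/-- open weight -/
def op (e : E) (x y : S) : ℝ := max (σ.fl e x y - σ.fl e (σ.sw x) y) 0

/-- closed weight -/
def cl (e : E) (x y : S) : ℝ := min (σ.fl e x y) (σ.fl e (σ.sw x) y)

theorem op_add_cl (e : E) (x y : S) : σ.op e x y + σ.cl e x y = σ.fl e x y := by
  unfold op cl
  rcases le_total (σ.fl e x y) (σ.fl e (σ.sw x) y) with h | h
  · rw [max_eq_right (by linarith), min_eq_left h, zero_add]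
  · rw [max_eq_left (by linarith), min_eq_right h]; ring

theorem op_nonneg (e : E) (x y : S) : 0 ≤ σ.op e x y := le_max_right _ _

theorem cl_nonneg (e : E) (x y : S) : 0 ≤ σ.cl e x y :=
  le_min (σ.fl_nonneg e x y) (σ.fl_nonneg e _ y)

theorem op_le (e : E) (x y : S) : σ.op e x y ≤ σ.fl e x y := by
  have := σ.op_add_cl e x y
  have := σ.cl_nonneg e x y
  linarith

theorem cl_le (e : E) (x y : S) : σ.cl e x y ≤ σ.fl e x y := min_le_left _ _

theorem fl_sw_right (e : E) (x y : S) : σ.fl e x (σ.sw y) = σ.fl e (σ.sw x) y := by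
  rw [← σ.fl_sw e (σ.sw x) y, σ.sw_sw]

theorem op_sw_sw (e : E) (x y : S) : σ.op e (σ.sw x) (σ.sw y) = σ.op e x y := by
  unfold op
  rw [σ.fl_sw, σ.fl_sw]

theorem cl_sw_sw (e : E) (x y : S) : σ.cl e (σ.sw x) (σ.sw y) = σ.cl e x y := by
  unfold cl
  rw [σ.fl_sw, σ.fl_sw]

theorem cl_sw_left (e : E) (x y : S) : σ.cl e (σ.sw x) y = σ.cl e x y := by
  unfold cl
  rw [σ.sw_sw, min_comm]

theorem cl_sw_right (e : E) (x y : S) : σ.cl e x (σ.sw y) = σ.cl e x y := by
  rw [← σ.cl_sw_left e x (σ.sw y), σ.cl_sw_sw]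

theorem op_pos {e : E} {x y : S} (h : σ.op e x y ≠ 0) : 0 < σ.d x * σ.d y := by
  by_contra hc
  apply h
  unfold op
  exact max_eq_right (sub_nonpos.2 (σ.fl_le e x y (not_lt.1 hc)))

/-- case form: same sign -/
theorem cl_of_le (e : E) (x y : S) (h : σ.d x * σ.d y ≤ 0) : σ.cl e x y = σ.fl e x y :=
  min_eq_left (σ.fl_le e x y h)

theorem op_of_le (e : E) (x y : S) (h : σ.d x * σ.d y ≤ 0) : σ.op e x y = 0 := by
  unfold op
  exact max_eq_right (sub_nonpos.2 (σ.fl_le e x y h))

/-- case form: the same sign -/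
theorem cl_of_ge (e : E) (x y : S) (h : 0 ≤ σ.d x * σ.d y) : σ.cl e x y = σ.fl e (σ.sw x) y := by
  apply min_eq_right
  have := σ.fl_le e (σ.sw x) y (by rw [σ.d_sw]; linarith)
  rwa [σ.sw_sw] at this

theorem op_of_ge (e : E) (x y : S) (h : 0 ≤ σ.d x * σ.d y) :
    σ.op e x y = σ.fl e x y - σ.fl e (σ.sw x) y := by
  have h1 := σ.cl_of_ge e x y h
  have h2 := σ.op_add_cl e x y
  linarith

end basic

section graph
variable {V E S : Type*} [Fintype V] [DecidableEq V] [Fintype E] [DecidableEq E] (σ : Sys V E S)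

/-- total weight of a configuration -/
noncomputable def tot (x : V → S) : ℝ :=
  (∏ e, σ.fl e (x (σ.s e)) (x (σ.t e))) * ∏ v, σ.g v (x v)

/-- weight of a configuration together with the set `om` of open edges -/
noncomputable def wt (om : Finset E) (x : V → S) : ℝ :=
  (∏ e ∈ om, σ.op e (x (σ.s e)) (x (σ.t e))) * (∏ e ∈ omᶜ, σ.cl e (x (σ.s e)) (x (σ.t e)))
    * ∏ v, σ.g v (x v)

theorem sum_wt (x : V → S) : ∑ om : Finset E, σ.wt om x = σ.tot x := by
  unfold wt tot
  rw [← Finset.sum_mul, ← full_expand]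
  simp only [σ.op_add_cl]

theorem wt_nonneg (om : Finset E) (x : V → S) : 0 ≤ σ.wt om x := by
  unfold wt
  refine mul_nonneg (mul_nonneg ?_ ?_) ?_
  · exact Finset.prod_nonneg fun e _ => σ.op_nonneg _ _ _
  · exact Finset.prod_nonneg fun e _ => σ.cl_nonneg _ _ _
  · exact Finset.prod_nonneg fun v _ => σ.g_nonneg _ _

theorem tot_nonneg (x : V → S) : 0 ≤ σ.tot x := by
  rw [← σ.sum_wt]
  exact Finset.sum_nonneg fun om _ => σ.wt_nonneg om x

theorem wt_le (om : Finset E) (x : V → S) : σ.wt om x ≤ σ.tot x := by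
  rw [← σ.sum_wt]
  exact Finset.single_le_sum (f := fun om => σ.wt om x) (fun om _ => σ.wt_nonneg om x)
    (Finset.mem_univ om)

/-- swap on the set `A` -/
def flip (A : Finset V) (x : V → S) : V → S := fun v => if v ∈ A then σ.sw (x v) else x v

theorem flip_mem {A : Finset V} {x : V → S} {v : V} (h : v ∈ A) : σ.flip A x v = σ.sw (x v) := by
  simp [flip, h]

theorem flip_not_mem {A : Finset V} {x : V → S} {v : V} (h : v ∉ A) : σ.flip A x v = x v := by
  simp [flip, h]

theorem flip_flip (A : Finset V) (x : V → S) : σ.flip A (σ.flip A x) = x := by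
  funext v
  by_cases h : v ∈ A
  · rw [σ.flip_mem h, σ.flip_mem h, σ.sw_sw]
  · rw [σ.flip_not_mem h, σ.flip_not_mem h]

/-- the swap as an equivalence -/
def flipE (A : Finset V) : (V → S) ≃ (V → S) where
  toFun := σ.flip A
  invFun := σ.flip A
  left_inv := σ.flip_flip A
  right_inv := σ.flip_flip A

/-- invariance of the weight under the swap of a union of clusters -/
theorem wt_flip {om : Finset E} {A : Finset V} (h : Disjoint om (bdE σ.s σ.t A)) (x : V → S) :
    σ.wt om (σ.flip A x) = σ.wt om x := by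
  unfold wt
  have hg : ∏ v, σ.g v (σ.flip A x v) = ∏ v, σ.g v (x v) := by
    refine Finset.prod_congr rfl fun v _ => ?_
    by_cases hv : v ∈ A
    · rw [σ.flip_mem hv, σ.g_sw]
    · rw [σ.flip_not_mem hv]
  have hop : ∏ e ∈ om, σ.op e (σ.flip A x (σ.s e)) (σ.flip A x (σ.t e))
      = ∏ e ∈ om, σ.op e (x (σ.s e)) (x (σ.t e)) := by
    refine Finset.prod_congr rfl fun e he => ?_
    have h1 := Finset.disjoint_left.1 h he
    rw [mem_bdE, not_not] at h1
    by_cases hs : σ.s e ∈ A
    · rw [σ.flip_mem hs, σ.flip_mem (h1.1 hs), σ.op_sw_sw]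
    · rw [σ.flip_not_mem hs, σ.flip_not_mem (fun ht => hs (h1.2 ht))]
  have hcl : ∏ e ∈ omᶜ, σ.cl e (σ.flip A x (σ.s e)) (σ.flip A x (σ.t e))
      = ∏ e ∈ omᶜ, σ.cl e (x (σ.s e)) (x (σ.t e)) := by
    refine Finset.prod_congr rfl fun e _ => ?_
    by_cases hs : σ.s e ∈ A
    · by_cases ht : σ.t e ∈ A
      · rw [σ.flip_mem hs, σ.flip_mem ht, σ.cl_sw_sw]
      · rw [σ.flip_mem hs, σ.flip_not_mem ht, σ.cl_sw_left]
    · by_cases ht : σ.t e ∈ A
      · rw [σ.flip_not_mem hs, σ.flip_mem ht, σ.cl_sw_right]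
      · rw [σ.flip_not_mem hs, σ.flip_not_mem ht]
  rw [hg, hop, hcl]

/-- open edges join sites where `d` has the same strict sign -/
theorem sign_edge {om : Finset E} {x : V → S} (h : σ.wt om x ≠ 0) {e : E} (he : e ∈ om) :
    0 < σ.d (x (σ.s e)) * σ.d (x (σ.t e)) := by
  apply σ.op_pos (e := e)
  intro h0
  apply h
  unfold wt
  rw [Finset.prod_eq_zero he h0, zero_mul, zero_mul]

/-- `d` has a strict constant sign on a cluster with more than one point -/
theorem sign_conn {om : Finset E} {x : V → S} (h : σ.wt om x ≠ 0) {u v : V}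
    (hc : Conn σ.s σ.t om u v) : u = v ∨ 0 < σ.d (x u) * σ.d (x v) := by
  induction hc with
  | refl => exact Or.inl rfl
  | @tail y z _ h2 ih =>
    right
    have hyz : 0 < σ.d (x y) * σ.d (x z) := by
      obtain ⟨e, he, h3⟩ := h2
      have h4 := σ.sign_edge h he
      rcases h3 with ⟨h5, h6⟩ | ⟨h5, h6⟩
      · rwa [h5, h6] at h4
      · rw [h5, h6, mul_comm] at h4; exact h4
    rcases ih with rfl | ih
    · exact hyz
    · have h7 : 0 < (σ.d (x u) * σ.d (x y)) * (σ.d (x y) * σ.d (x z)) := mul_pos ih hyz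
      have h8 : 0 < σ.d (x y) * σ.d (x y) := by
        rcases lt_trichotomy (σ.d (x y)) 0 with h9 | h9 | h9
        · exact mul_pos_of_neg_of_neg h9 h9
        · rw [h9, mul_zero] at ih; exact absurd ih (lt_irrefl _)
        · exact mul_pos h9 h9
      have h10 : (σ.d (x u) * σ.d (x y)) * (σ.d (x y) * σ.d (x z))
          = (σ.d (x y) * σ.d (x y)) * (σ.d (x u) * σ.d (x z)) := by ring
      rw [h10] at h7
      exact (mul_pos_iff_of_pos_left h8).1 h7

end graph

end Sys

/-! ### the two instances -/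

section inst
variable {V E : Type*}

/-- two copies: state `(h, h')`, swap, `d = h - h'`; `w e` log-concave, `g` symmetric -/
def two (s t : E → V) (w : E → ℤ → ℝ) (hw0 : ∀ e n, 0 ≤ w e n)
    (hw : ∀ e, T1.H897.LogC (w e)) (a : V → ℤ → ℝ) (ha : ∀ v n, 0 ≤ a v n) :
    Sys V E (ℤ × ℤ) where
  s := s
  t := t
  sw := Prod.swap
  d := fun x => x.1 - x.2
  fl := fun e x y => w e (y.1 - x.1) * w e (y.2 - x.2)
  g := fun v x => a v x.1 * a v x.2
  sw_sw := fun x => Prod.swap_swap x
  d_sw := fun x => by simp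
  fl_nonneg := fun e x y => mul_nonneg (hw0 e _) (hw0 e _)
  fl_sw := fun e x y => by simp [mul_comm]
  fl_le := fun e x y h => by
    simp only [Prod.fst_swap, Prod.snd_swap]
    rcases le_total x.1 x.2 with h1 | h1 <;> rcases le_total y.1 y.2 with h2 | h2
    · have h3 : 0 ≤ (x.1 - x.2) * (y.1 - y.2) :=
        mul_nonneg_of_nonpos_of_nonpos (by omega) (by omega)
      have h4 : (x.1 - x.2) * (y.1 - y.2) = 0 := le_antisymm h h3
      rcases mul_eq_zero.1 h4 with h5 | h5
      · have : x.1 = x.2 := by omega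
        rw [this]
      · have : y.1 = y.2 := by omega
        rw [this, mul_comm]
    · have := hw e (y.2 - x.2) (y.2 - x.1) (y.1 - x.2) (y.1 - x.1) (by ring) (by omega) (by omega)
      nlinarith [this]
    · have := hw e (y.1 - x.1) (y.1 - x.2) (y.2 - x.1) (y.2 - x.2) (by ring) (by omega) (by omega)
      nlinarith [this]
    · have h3 : 0 ≤ (x.1 - x.2) * (y.1 - y.2) := mul_nonneg (by omega) (by omega)
      have h4 : (x.1 - x.2) * (y.1 - y.2) = 0 := le_antisymm h h3
      rcases mul_eq_zero.1 h4 with h5 | h5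
      · have : x.1 = x.2 := by omega
        rw [this]
      · have : y.1 = y.2 := by omega
        rw [this, mul_comm]
  g_nonneg := fun v x => mul_nonneg (ha v _) (ha v _)
  g_sw := fun v x => by simp [mul_comm]

/-- one copy without background: state `h`, `h ↦ -h`, `d = h` -/
def one (s t : E → V) (w : E → ℤ → ℝ) (hw0 : ∀ e n, 0 ≤ w e n)
    (hev : ∀ e n, w e (-n) = w e n)
    (hw : ∀ e, T1.H897.LogC (w e)) (a : V → ℤ → ℝ) (ha : ∀ v n, 0 ≤ a v n)
    (hae : ∀ v n, a v (-n) = a v n) :
    Sys V E ℤ where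
  s := s
  t := t
  sw := fun x => -x
  d := fun x => x
  fl := fun e x y => w e (y - x)
  g := a
  sw_sw := fun x => neg_neg x
  d_sw := fun x => rfl
  fl_nonneg := fun e x y => hw0 e _
  fl_sw := fun e x y => by rw [← hev e (y - x)]; congr 1; ring
  fl_le := fun e x y h => by
    -- `|y - x| ≥ |y + x|`
    have key : ∀ m n : ℤ, |m| ≤ |n| → w e n ≤ w e m := by
      intro m n hmn
      have h1 := hw e (-|n|) (-|m|) |m| |n| (by ring) (by linarith) (by
        have := abs_nonneg m; have := abs_nonneg n; linarith)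
      have h2 : ∀ k : ℤ, w e |k| = w e k := by
        intro k
        rcases abs_choice k with h | h
        · rw [h]
        · rw [h, hev]
      rw [hev, hev, h2, h2] at h1
      exact (mul_self_le_mul_self_iff (hw0 e n) (hw0 e m)).2 (by linarith [h1])
    apply key
    exact sq_le_sq.1 (by nlinarith [h])
  g_nonneg := ha
  g_sw := hae

end inst

end Vale.Agent.P159.TM.H60
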