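import Vale.Agent.P159.TM.H60.Cls
import Vale.Agent.P159.TM.H60.Swap

/-!
Sums over the configurations and the open sets, decomposed along the clusters of a set `X` of
sources; comparison of the rest given the clusters.  Everything in `[0, ∞]` and in the reals.
-/

open Finset
open scoped ENNReal

set_option linter.unusedSectionVars false
set_option linter.unusedDecidableInType false

namespace Vale.Agent.P159.TM.H60

namespace Sys

variable {V E S : Type*} [Fintype V] [DecidableEq V] [Fintype E] [DecidableEq E] (σ : Sys V E S)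

/-- weight inside: the clusters of `X` fill `A` -/
noncomputable def insw (X A : Finset V) (x : V → S) : ℝ :=
  insS σ.s σ.t (fun e => σ.op e (x (σ.s e)) (x (σ.t e)))
    (fun e => σ.cl e (x (σ.s e)) (x (σ.t e))) X A * ∏ v ∈ A, σ.g v (x v)

/-- weight of the rest -/
noncomputable def rstw (A : Finset V) (x : V → S) : ℝ :=
  (∏ e ∈ bdE σ.s σ.t A, σ.cl e (x (σ.s e)) (x (σ.t e)))
    * (∏ e ∈ outE σ.s σ.t A, σ.fl e (x (σ.s e)) (x (σ.t e))) * ∏ v ∈ Aᶜ, σ.g v (x v)

theorem insw_nonneg (X A : Finset V) (x : V → S) : 0 ≤ σ.insw X A x := by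
  unfold insw insS
  refine mul_nonneg (Finset.sum_nonneg fun om _ => mul_nonneg ?_ ?_) ?_
  · exact Finset.prod_nonneg fun e _ => σ.op_nonneg _ _ _
  · exact Finset.prod_nonneg fun e _ => σ.cl_nonneg _ _ _
  · exact Finset.prod_nonneg fun v _ => σ.g_nonneg _ _

theorem rstw_nonneg (A : Finset V) (x : V → S) : 0 ≤ σ.rstw A x := by
  unfold rstw
  refine mul_nonneg (mul_nonneg ?_ ?_) ?_
  · exact Finset.prod_nonneg fun e _ => σ.cl_nonneg _ _ _
  · exact Finset.prod_nonneg fun e _ => σ.fl_nonneg _ _ _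
  · exact Finset.prod_nonneg fun v _ => σ.g_nonneg _ _

/-- the weight of all open sets for which the clusters of `X` fill `A` -/
theorem sum_wt_cls (X A : Finset V) (x : V → S) :
    ∑ om ∈ univ.filter (fun om : Finset E => cls σ.s σ.t om X = A), σ.wt om x
      = σ.insw X A x * σ.rstw A x := by
  unfold wt insw rstw
  rw [← Finset.sum_mul, sum_cls_eq]
  simp only [σ.op_add_cl]
  rw [← Finset.prod_mul_prod_compl A (fun v => σ.g v (x v))]
  ring

theorem insw_congr {X A : Finset V} {x x' : V → S} (h : ∀ v ∈ A, x v = x' v) :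
    σ.insw X A x = σ.insw X A x' := by
  unfold insw insS
  congr 1
  · refine Finset.sum_congr rfl fun om hom => ?_
    rw [Finset.mem_filter, Finset.mem_powerset] at hom
    congr 1
    · refine Finset.prod_congr rfl fun e he => ?_
      have h1 := mem_inE.1 (hom.1 he)
      simp only [h _ h1.1, h _ h1.2]
    · refine Finset.prod_congr rfl fun e he => ?_
      have h1 := mem_inE.1 (Finset.mem_sdiff.1 he).1
      simp only [h _ h1.1, h _ h1.2]
  · exact Finset.prod_congr rfl fun v hv => by rw [h v hv]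

/-- if the inner weight is not zero then every site of `A` is joined to a source by edges along
which `d` has a constant strict sign -/
theorem insw_ne {X A : Finset V} {x : V → S} (h : σ.insw X A x ≠ 0) :
    ∀ v ∈ A, ∃ u ∈ X, u = v ∨ 0 < σ.d (x u) * σ.d (x v) := by
  intro v hv
  have h1 : insS σ.s σ.t (fun e => σ.op e (x (σ.s e)) (x (σ.t e)))
    (fun e => σ.cl e (x (σ.s e)) (x (σ.t e))) X A ≠ 0 := fun h0 => h (by rw [insw, h0, zero_mul])
  obtain ⟨om, hom, h2⟩ := Finset.exists_ne_zero_of_sum_ne_zero h1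
  rw [Finset.mem_filter, Finset.mem_powerset] at hom
  have h3 : ∀ e ∈ om, 0 < σ.d (x (σ.s e)) * σ.d (x (σ.t e)) := by
    intro e he
    apply σ.op_pos (e := e)
    intro h0
    exact h2 (by rw [Finset.prod_eq_zero he h0, zero_mul])
  rw [← hom.2, mem_cls] at hv
  obtain ⟨u, hu, hc⟩ := hv
  refine ⟨u, hu, ?_⟩
  clear hom h2
  induction hc with
  | refl => exact Or.inl rfl
  | @tail y z _ h4 ih =>
    right
    have hyz : 0 < σ.d (x y) * σ.d (x z) := by
      obtain ⟨e, he, h5⟩ := h4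
      have h6 := h3 e he
      rcases h5 with ⟨h7, h8⟩ | ⟨h7, h8⟩
      · rwa [h7, h8] at h6
      · rw [h7, h8, mul_comm] at h6; exact h6
    rcases ih with rfl | ih
    · exact hyz
    · have h7 : 0 < (σ.d (x u) * σ.d (x y)) * (σ.d (x y) * σ.d (x z)) := mul_pos ih hyz
      have h8 : 0 < σ.d (x y) * σ.d (x y) := by
        rcases lt_trichotomy (σ.d (x y)) 0 with h9 | h9 | h9
        · exact mul_pos_of_neg_of_neg h9 h9
        · rw [h9, mul_zero] at ih; exact absurd ih (lt_irrefl _)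
        · exact mul_pos h9 h9
      have h10 : (σ.d (x u) * σ.d (x y)) * (σ.d (x y) * σ.d (x z))
          = (σ.d (x y) * σ.d (x y)) * (σ.d (x u) * σ.d (x z)) := by ring
      rw [h10] at h7
      exact (mul_pos_iff_of_pos_left h8).1 h7

/-- `d ≠ 0` on the whole cluster of `u` when `d (x u) ≠ 0` -/
theorem insw_d_ne {u : V} {A : Finset V} {x : V → S} (h : σ.insw {u} A x ≠ 0)
    (hu : σ.d (x u) ≠ 0) : ∀ v ∈ A, σ.d (x v) ≠ 0 := by
  intro v hv
  obtain ⟨w, hw, h1⟩ := σ.insw_ne h v hv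
  rw [Finset.mem_singleton] at hw
  subst hw
  rcases h1 with rfl | h1
  · exact hu
  · intro h0
    rw [h0, mul_zero] at h1
    exact lt_irrefl _ h1

/-! ### gluing -/

/-- the configuration which is `x` on `A` and `y` off `A` -/
def glu (A : Finset V) (x : V → S) (y : {v // v ∉ A} → S) : V → S :=
  fun v => if h : v ∈ A then x v else y ⟨v, h⟩

theorem glu_mem {A : Finset V} {x : V → S} {y : {v // v ∉ A} → S} {v : V} (h : v ∈ A) :
    glu A x y v = x v := by simp [glu, h]

theorem glu_not_mem {A : Finset V} {x : V → S} {y : {v // v ∉ A} → S} {v : V} (h : v ∉ A) :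
    glu A x y v = y ⟨v, h⟩ := by simp [glu, h]

/-- the weight of the rest in terms of the outer configuration -/
theorem rstw_glu (A : Finset V) (x : V → S) (y : {v // v ∉ A} → S) :
    σ.rstw A (glu A x y)
      = (∏ e ∈ bdE σ.s σ.t A, σ.cl e (glu A x y (σ.s e)) (glu A x y (σ.t e)))
        * (∏ e ∈ outE σ.s σ.t A, σ.fl e (glu A x y (σ.s e)) (glu A x y (σ.t e)))
        * ∏ v : {v // v ∉ A}, σ.g v (y v) := by
  unfold rstw
  congr 1
  rw [Finset.prod_subtype Aᶜ (p := fun v => v ∉ A) (fun v => Finset.mem_compl)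
    (fun v => σ.g v (glu A x y v))]
  refine Finset.prod_congr rfl fun v _ => ?_
  rw [glu_not_mem v.2]

/-! ### sums in `[0, ∞]` -/

/-- sum over the configurations off `A` -/
noncomputable def restZ (A : Finset V) (x : V → S) (f : (V → S) → ℝ≥0∞) : ℝ≥0∞ :=
  ∑' y : {v // v ∉ A} → S, ENNReal.ofReal (σ.rstw A (glu A x y)) * f (glu A x y)

theorem tsum_decomp (X : Finset V) (F : Finset V → (V → S) → ℝ≥0∞) :
    ∑ om : Finset E, ∑' x, ENNReal.ofReal (σ.wt om x) * F (cls σ.s σ.t om X) x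
      = ∑ A : Finset V, ∑' x, ENNReal.ofReal (σ.insw X A x)
          * (ENNReal.ofReal (σ.rstw A x) * F A x) := by
  classical
  rw [← Finset.sum_fiberwise_of_maps_to (s := (univ : Finset (Finset E)))
    (t := (univ : Finset (Finset V))) (g := fun om => cls σ.s σ.t om X)
    (fun _ _ => Finset.mem_univ _)]
  refine Finset.sum_congr rfl (fun A _ => ?_)
  have h1 : ∀ om ∈ univ.filter (fun om : Finset E => cls σ.s σ.t om X = A),
      ∑' x, ENNReal.ofReal (σ.wt om x) * F (cls σ.s σ.t om X) x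
        = ∑' x, ENNReal.ofReal (σ.wt om x) * F A x := by
    intro om hom
    rw [(Finset.mem_filter.1 hom).2]
  rw [Finset.sum_congr rfl h1, ← Summable.tsum_finsetSum (fun _ _ => ENNReal.summable)]
  refine tsum_congr fun x => ?_
  rw [← Finset.sum_mul, ← ENNReal.ofReal_sum_of_nonneg (fun om _ => σ.wt_nonneg om x),
    σ.sum_wt_cls, ENNReal.ofReal_mul (σ.insw_nonneg X A x), mul_assoc]

/-- fibering over the configurations on `A` -/
theorem tsum_fiber (A : Finset V) (F : (V → S) → ℝ≥0∞) :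
    ∑' x, F x = ∑' xA : {v // v ∈ A} → S, ∑' y : {v // v ∉ A} → S,
      F (fun v => if h : v ∈ A then xA ⟨v, h⟩ else y ⟨v, h⟩) := by
  rw [← ENNReal.tsum_prod (f := fun (xA : {v // v ∈ A} → S) (y : {v // v ∉ A} → S) =>
    F (fun v => if h : v ∈ A then xA ⟨v, h⟩ else y ⟨v, h⟩))]
  rw [← (Equiv.piEquivPiSubtypeProd (fun v => v ∈ A) (fun _ => S)).symm.tsum_eq]
  rfl

/-- comparison of two sums over `x` through the sums over the outside of `A` -/
theorem tsum_le_of_rest {A : Finset V} {f1 f2 : (V → S) → ℝ≥0∞}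
    (h : ∀ x, ∑' y : {v // v ∉ A} → S, f1 (glu A x y) ≤ ∑' y : {v // v ∉ A} → S, f2 (glu A x y)) :
    ∑' x, f1 x ≤ ∑' x, f2 x := by
  rw [tsum_fiber A f1, tsum_fiber A f2]
  refine ENNReal.tsum_le_tsum fun xA => ?_
  by_cases hne : Nonempty ({v // v ∉ A} → S)
  · obtain ⟨y0⟩ := hne
    have h1 := h (fun v => if h : v ∈ A then xA ⟨v, h⟩ else y0 ⟨v, h⟩)
    have h2 : ∀ y : {v // v ∉ A} → S,
        glu A (fun v => if h : v ∈ A then xA ⟨v, h⟩ else y0 ⟨v, h⟩) y
          = fun v => if h : v ∈ A then xA ⟨v, h⟩ else y ⟨v, h⟩ := by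
      intro y
      funext v
      by_cases hv : v ∈ A
      · simp [glu, hv]
      · simp [glu, hv]
    simpa only [h2] using h1
  · rw [not_nonempty_iff] at hne
    simp

/-- **comparison of the rest**: `a` depends only on the configuration on the clusters of `X`. -/
theorem rest_le (X : Finset V) {a f1 f2 : Finset V → (V → S) → ℝ≥0∞}
    (ha : ∀ A x x', (∀ v ∈ A, x v = x' v) → a A x = a A x')
    (h : ∀ A x, X ⊆ A → a A x ≠ 0 → σ.insw X A x ≠ 0 →
      σ.restZ A x (f1 A) ≤ σ.restZ A x (f2 A)) :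
    ∑ om : Finset E, ∑' x, ENNReal.ofReal (σ.wt om x)
        * (a (cls σ.s σ.t om X) x * f1 (cls σ.s σ.t om X) x)
      ≤ ∑ om : Finset E, ∑' x, ENNReal.ofReal (σ.wt om x)
        * (a (cls σ.s σ.t om X) x * f2 (cls σ.s σ.t om X) x) := by
  rw [σ.tsum_decomp X (fun A x => a A x * f1 A x), σ.tsum_decomp X (fun A x => a A x * f2 A x)]
  refine Finset.sum_le_sum fun A _ => ?_
  apply tsum_le_of_rest (A := A)
  intro x
  have e : ∀ (f : Finset V → (V → S) → ℝ≥0∞) (y : {v // v ∉ A} → S),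
      ENNReal.ofReal (σ.insw X A (glu A x y)) * (ENNReal.ofReal (σ.rstw A (glu A x y))
        * (a A (glu A x y) * f A (glu A x y)))
      = (ENNReal.ofReal (σ.insw X A x) * a A x)
        * (ENNReal.ofReal (σ.rstw A (glu A x y)) * f A (glu A x y)) := by
    intro f y
    rw [σ.insw_congr (x := glu A x y) (x' := x) (fun v hv => glu_mem hv),
      ha A (glu A x y) x (fun v hv => glu_mem hv)]
    ring
  simp only [e]
  rw [ENNReal.tsum_mul_left, ENNReal.tsum_mul_left]
  by_cases hX : X ⊆ A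
  · by_cases h1 : a A x = 0
    · rw [h1]; simp
    · by_cases h2 : σ.insw X A x = 0
      · rw [h2]; simp
      · exact mul_le_mul_right (h A x hX h1 h2) _
  · have : σ.insw X A x = 0 := by
      rw [insw, insS_eq_zero _ _ _ _ hX, zero_mul]
    rw [this]; simp

/-- the same for one source -/
theorem rest_le_one (u : V) {a f1 f2 : Finset V → (V → S) → ℝ≥0∞}
    (ha : ∀ A x x', (∀ v ∈ A, x v = x' v) → a A x = a A x')
    (h : ∀ A x, u ∈ A → a A x ≠ 0 → σ.insw {u} A x ≠ 0 →
      σ.restZ A x (f1 A) ≤ σ.restZ A x (f2 A)) :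
    ∑ om : Finset E, ∑' x, ENNReal.ofReal (σ.wt om x)
        * (a (clus σ.s σ.t om u) x * f1 (clus σ.s σ.t om u) x)
      ≤ ∑ om : Finset E, ∑' x, ENNReal.ofReal (σ.wt om x)
        * (a (clus σ.s σ.t om u) x * f2 (clus σ.s σ.t om u) x) := by
  have := σ.rest_le {u} ha (f1 := f1) (f2 := f2)
    (fun A x hX => h A x (hX (Finset.mem_singleton_self u)))
  simpa only [cls_single] using this

/-! ### the fair sign bound in `[0, ∞]` -/

open Classical in
theorem swap_enn {β τ : V → ℝ} (hβ : ∀ v, 0 ≤ β v) (hτ : ∀ v, 0 ≤ τ v)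
    (Φ : Finset V → Prop)
    (hS : ∀ u v, Summable fun x => σ.tot x * |σ.F2 τ u v x|) :
    ∑ om : Finset E, ∑ u, ∑' x, ENNReal.ofReal (σ.wt om x)
        * (ENNReal.ofReal ((β u * |σ.D x u| * ∑ v ∈ clus σ.s σ.t om u, β v * |σ.D x v|)
            * (if Φ (clus σ.s σ.t om u) then 1 else 0)
            * Real.cosh (σ.pa τ (clus σ.s σ.t om u) x))
          * ENNReal.ofReal (Real.exp (σ.pr τ (clus σ.s σ.t om u)ᶜ x)))
      ≤ ∑' x, ENNReal.ofReal (σ.tot x * ((∑ u, β u * σ.D x u) ^ 2 * Real.exp (σ.pr τ univ x))) := by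
  have h0 := σ.swap_lower hβ hτ Φ hS
  have hsum : Summable fun x => σ.tot x * ((∑ u, β u * σ.D x u) ^ 2 * Real.exp (σ.pr τ univ x)) := by
    have h1 : ∀ x, σ.tot x * ((∑ u, β u * σ.D x u) ^ 2 * Real.exp (σ.pr τ univ x))
        = ∑ u, ∑ v, β u * β v * (σ.tot x * σ.F2 τ u v x) := by
      intro x
      have h2 : (∑ u, β u * σ.D x u) ^ 2 * Real.exp (σ.pr τ univ x)
          = ∑ u, ∑ v, β u * β v * σ.F2 τ u v x := by
        rw [sq, Finset.sum_mul_sum, Finset.sum_mul]
        refine Finset.sum_congr rfl fun u _ => ?_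
        rw [Finset.sum_mul]
        refine Finset.sum_congr rfl fun v _ => ?_
        unfold F2
        ring
      rw [h2, Finset.mul_sum]
      refine Finset.sum_congr rfl fun u _ => ?_
      rw [Finset.mul_sum]
      refine Finset.sum_congr rfl fun v _ => ?_
      ring
    simp only [h1]
    refine summable_sum fun u _ => summable_sum fun v _ => Summable.mul_left _ ?_
    refine Summable.of_norm_bounded (hS u v) fun x => ?_
    rw [Real.norm_eq_abs, abs_mul, abs_of_nonneg (σ.tot_nonneg x)]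
  have hnn : ∀ x, 0 ≤ σ.tot x * ((∑ u, β u * σ.D x u) ^ 2 * Real.exp (σ.pr τ univ x)) :=
    fun x => mul_nonneg (σ.tot_nonneg x) (by positivity)
  rw [← ENNReal.ofReal_tsum_of_nonneg hnn hsum]
  refine le_trans (le_of_eq ?_) (ENNReal.ofReal_le_ofReal h0)
  have hK : ∀ (om : Finset E) (u v : V) (x : V → S),
      0 ≤ σ.wt om x * σ.K2 τ u v (clus σ.s σ.t om u) x :=
    fun om u v x => mul_nonneg (σ.wt_nonneg om x) (σ.K2_nonneg _ _ _ _ _)
  have hterm : ∀ (om : Finset E) (u v : V), 0 ≤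
      (if Φ (clus σ.s σ.t om u) then
          β u * β v * ∑' x, σ.wt om x * σ.K2 τ u v (clus σ.s σ.t om u) x else 0) := by
    intro om u v
    split_ifs
    · exact mul_nonneg (mul_nonneg (hβ u) (hβ v)) (tsum_nonneg (hK om u v))
    · exact le_rfl
  rw [ENNReal.ofReal_sum_of_nonneg fun om _ => Finset.sum_nonneg fun u _ =>
    Finset.sum_nonneg fun v _ => hterm om u v]
  refine Finset.sum_congr rfl fun om _ => ?_
  rw [ENNReal.ofReal_sum_of_nonneg fun u _ => Finset.sum_nonneg fun v _ => hterm om u v]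
  refine Finset.sum_congr rfl fun u _ => ?_
  rw [ENNReal.ofReal_sum_of_nonneg fun v _ => hterm om u v]
  by_cases hΦ : Φ (clus σ.s σ.t om u)
  · simp only [if_pos hΦ]
    have e1 : ∀ v ∈ clus σ.s σ.t om u,
        ENNReal.ofReal (β u * β v * ∑' x, σ.wt om x * σ.K2 τ u v (clus σ.s σ.t om u) x)
          = ∑' x, ENNReal.ofReal (β u * β v * (σ.wt om x * σ.K2 τ u v (clus σ.s σ.t om u) x)) := by
      intro v hv
      rw [← tsum_mul_left, ENNReal.ofReal_tsum_of_nonneg
        (fun x => mul_nonneg (mul_nonneg (hβ u) (hβ v)) (hK om u v x))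
        ((σ.summable_same τ (mem_clus.1 hv) (hS u v)).mul_left _)]
    rw [Finset.sum_congr rfl e1, ← Summable.tsum_finsetSum (fun _ _ => ENNReal.summable)]
    refine tsum_congr fun x => ?_
    rw [← ENNReal.ofReal_sum_of_nonneg
      (fun v _ => mul_nonneg (mul_nonneg (hβ u) (hβ v)) (hK om u v x)),
      ← ENNReal.ofReal_mul', ← ENNReal.ofReal_mul (σ.wt_nonneg om x)]
    · congr 1
      rw [mul_one, Finset.mul_sum, Finset.sum_mul, Finset.sum_mul, Finset.mul_sum]
      refine Finset.sum_congr rfl fun v _ => ?_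
      unfold K2
      ring
    · exact (Real.exp_pos _).le
  · simp only [if_neg hΦ]
    simp

end Sys

end Vale.Agent.P159.TM.H60
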