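import Mathlib

/-!
One-cluster decomposition for a product (open / closed) edge weight on a finite graph.
-/

open Finset

set_option linter.unusedSectionVars false
set_option linter.unusedDecidableInType false

namespace Vale.Agent.P159.TM.H60

section
variable {V E : Type*}

/-- `x` and `y` are the two endpoints of an open edge. -/
def Adj (a b : E → V) (om : Finset E) (x y : V) : Prop :=
  ∃ e ∈ om, (a e = x ∧ b e = y) ∨ (a e = y ∧ b e = x)

/-- connected by open edges -/
def Conn (a b : E → V) (om : Finset E) : V → V → Prop :=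
  Relation.ReflTransGen (Adj a b om)

theorem Adj.symm {a b : E → V} {om : Finset E} {x y : V} (h : Adj a b om x y) :
    Adj a b om y x := by
  obtain ⟨e, he, h⟩ := h
  exact ⟨e, he, h.symm⟩

theorem Adj.mono {a b : E → V} {om om' : Finset E} (hs : om ⊆ om') {x y : V}
    (h : Adj a b om x y) : Adj a b om' x y := by
  obtain ⟨e, he, h⟩ := h
  exact ⟨e, hs he, h⟩

theorem Conn.refl {a b : E → V} {om : Finset E} (x : V) : Conn a b om x x :=
  Relation.ReflTransGen.refl

theorem Conn.symm {a b : E → V} {om : Finset E} {x y : V} (h : Conn a b om x y) :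
    Conn a b om y x := by
  induction h with
  | refl => exact Relation.ReflTransGen.refl
  | tail _ h2 ih => exact Relation.ReflTransGen.head h2.symm ih

theorem Conn.trans {a b : E → V} {om : Finset E} {x y z : V} (h : Conn a b om x y)
    (h' : Conn a b om y z) : Conn a b om x z := Relation.ReflTransGen.trans h h'

theorem Conn.mono {a b : E → V} {om om' : Finset E} (hs : om ⊆ om') {x y : V}
    (h : Conn a b om x y) : Conn a b om' x y := by
  induction h with
  | refl => exact Relation.ReflTransGen.refl
  | tail _ h2 ih => exact Relation.ReflTransGen.tail ih (h2.mono hs)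

theorem Conn.edge {a b : E → V} {om : Finset E} {e : E} (he : e ∈ om) :
    Conn a b om (a e) (b e) :=
  Relation.ReflTransGen.single ⟨e, he, Or.inl ⟨rfl, rfl⟩⟩

end

section
variable {V E : Type*} [Fintype V] [DecidableEq V] [Fintype E] [DecidableEq E]

open Classical in
/-- the open cluster of `u` -/
noncomputable def clus (a b : E → V) (om : Finset E) (u : V) : Finset V :=
  univ.filter (fun v => Conn a b om u v)

theorem mem_clus {a b : E → V} {om : Finset E} {u v : V} :
    v ∈ clus a b om u ↔ Conn a b om u v := by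
  classical
  simp [clus]

theorem self_mem_clus {a b : E → V} {om : Finset E} (u : V) : u ∈ clus a b om u :=
  mem_clus.2 (Conn.refl u)

/-- edges inside `A` -/
def inE (a b : E → V) (A : Finset V) : Finset E :=
  univ.filter (fun e => a e ∈ A ∧ b e ∈ A)

/-- boundary edges of `A` -/
def bdE (a b : E → V) (A : Finset V) : Finset E :=
  univ.filter (fun e => ¬ (a e ∈ A ↔ b e ∈ A))

/-- edges which do not touch `A` -/
def outE (a b : E → V) (A : Finset V) : Finset E :=
  univ.filter (fun e => a e ∉ A ∧ b e ∉ A)

theorem mem_inE {a b : E → V} {A : Finset V} {e : E} :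
    e ∈ inE a b A ↔ a e ∈ A ∧ b e ∈ A := by simp [inE]

theorem mem_bdE {a b : E → V} {A : Finset V} {e : E} :
    e ∈ bdE a b A ↔ ¬ (a e ∈ A ↔ b e ∈ A) := by simp [bdE]

theorem mem_outE {a b : E → V} {A : Finset V} {e : E} :
    e ∈ outE a b A ↔ a e ∉ A ∧ b e ∉ A := by simp [outE]

/-- endpoints of an open edge are in the cluster together -/
theorem clus_edge {a b : E → V} {om : Finset E} {u : V} {e : E} (he : e ∈ om) :
    a e ∈ clus a b om u ↔ b e ∈ clus a b om u := by
  rw [mem_clus, mem_clus]
  exact ⟨fun h => h.trans (Conn.edge he), fun h => h.trans (Conn.edge he).symm⟩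

theorem clus_no_bd {a b : E → V} {om : Finset E} {u : V} {A : Finset V}
    (h : clus a b om u = A) : Disjoint om (bdE a b A) := by
  rw [Finset.disjoint_left]
  intro e he hb
  rw [mem_bdE] at hb
  subst h
  exact hb (clus_edge he)

theorem clus_inter_in {a b : E → V} {om : Finset E} {u : V} {A : Finset V}
    (h : clus a b om u = A) : clus a b (om ∩ inE a b A) u = A := by
  apply Finset.Subset.antisymm
  · intro v hv
    rw [← h, mem_clus]
    rw [mem_clus] at hv
    exact hv.mono Finset.inter_subset_left
  · intro v hv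
    rw [← h, mem_clus] at hv
    rw [mem_clus]
    unfold Conn at hv ⊢
    induction hv with
    | refl => exact Relation.ReflTransGen.refl
    | @tail y z h1 h2 ih =>
      refine ih.tail ?_
      obtain ⟨e, he, hxy⟩ := h2
      have hy : y ∈ A := by rw [← h]; exact mem_clus.2 h1
      have hz : z ∈ A := by
        rw [← h]
        exact mem_clus.2 (Relation.ReflTransGen.tail h1 ⟨e, he, hxy⟩)
      refine ⟨e, ?_, hxy⟩
      rw [Finset.mem_inter, mem_inE]
      refine ⟨he, ?_⟩
      rcases hxy with ⟨h3, h4⟩ | ⟨h3, h4⟩
      · rw [h3, h4]; exact ⟨hy, hz⟩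
      · rw [h3, h4]; exact ⟨hz, hy⟩

theorem clus_union {a b : E → V} {s t : Finset E} {u : V} {A : Finset V}
    (h : clus a b s u = A) (ht : t ⊆ outE a b A) : clus a b (s ∪ t) u = A := by
  apply Finset.Subset.antisymm
  · intro v hv
    rw [mem_clus] at hv
    unfold Conn at hv
    induction hv with
    | refl => rw [← h]; exact self_mem_clus u
    | @tail y z h1 h2 ih =>
      obtain ⟨e, he, hxy⟩ := h2
      rcases Finset.mem_union.1 he with hes | het
      · rw [← h] at ih ⊢
        rw [mem_clus] at ih ⊢
        exact ih.tail ⟨e, hes, hxy⟩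
      · have := ht het
        rw [mem_outE] at this
        rcases hxy with ⟨h3, h4⟩ | ⟨h3, h4⟩
        · rw [h3] at this; exact absurd ih this.1
        · rw [h4] at this; exact absurd ih this.2
  · intro v hv
    rw [← h, mem_clus] at hv
    rw [mem_clus]
    exact hv.mono Finset.subset_union_left

/-- total weight of the open configurations inside `A` which connect `A` (seen from `u`) -/
noncomputable def ins {R : Type*} [CommSemiring R] (a b : E → V) (op cl : E → R) (u : V)
    (A : Finset V) : R :=
  ∑ om ∈ (inE a b A).powerset.filter (fun om => clus a b om u = A),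
    (∏ e ∈ om, op e) * ∏ e ∈ inE a b A \ om, cl e

theorem disj_in_bd (a b : E → V) (A : Finset V) : Disjoint (inE a b A) (bdE a b A) := by
  rw [Finset.disjoint_left]
  intro e h1 h2
  rw [mem_inE] at h1
  rw [mem_bdE] at h2
  exact h2 ⟨fun _ => h1.2, fun _ => h1.1⟩

theorem disj_in_out (a b : E → V) (A : Finset V) : Disjoint (inE a b A) (outE a b A) := by
  rw [Finset.disjoint_left]
  intro e h1 h2
  rw [mem_inE] at h1
  rw [mem_outE] at h2
  exact h2.1 h1.1

theorem disj_bd_out (a b : E → V) (A : Finset V) : Disjoint (bdE a b A) (outE a b A) := by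
  rw [Finset.disjoint_left]
  intro e h1 h2
  rw [mem_bdE] at h1
  rw [mem_outE] at h2
  exact h1 ⟨fun h => absurd h h2.1, fun h => absurd h h2.2⟩

theorem union_three (a b : E → V) (A : Finset V) :
    inE a b A ∪ bdE a b A ∪ outE a b A = univ := by
  ext e
  simp only [Finset.mem_union, mem_inE, mem_bdE, mem_outE, Finset.mem_univ, iff_true]
  tauto

theorem eq_union_of_clus {a b : E → V} {om : Finset E} {u : V} {A : Finset V}
    (h : clus a b om u = A) : om = (om ∩ inE a b A) ∪ (om ∩ outE a b A) := by
  ext e
  simp only [Finset.mem_union, Finset.mem_inter]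
  constructor
  · intro he
    have h1 : e ∈ inE a b A ∪ bdE a b A ∪ outE a b A := by
      rw [union_three]; exact Finset.mem_univ e
    have h2 := Finset.disjoint_left.1 (clus_no_bd h) he
    rcases Finset.mem_union.1 h1 with h3 | h3
    · rcases Finset.mem_union.1 h3 with h4 | h4
      · exact Or.inl ⟨he, h4⟩
      · exact absurd h4 h2
    · exact Or.inr ⟨he, h3⟩
  · rintro (h1 | h1)
    · exact h1.1
    · exact h1.1

theorem compl_union {a b : E → V} {s t : Finset E} {A : Finset V}
    (hs : s ⊆ inE a b A) (ht : t ⊆ outE a b A) :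
    (s ∪ t)ᶜ = (inE a b A \ s) ∪ bdE a b A ∪ (outE a b A \ t) := by
  ext e
  have h1 : e ∈ inE a b A ∪ bdE a b A ∪ outE a b A := by
    rw [union_three]; exact Finset.mem_univ e
  have hio : e ∈ inE a b A → e ∉ outE a b A :=
    fun h => Finset.disjoint_left.1 (disj_in_out a b A) h
  have hib : e ∈ inE a b A → e ∉ bdE a b A :=
    fun h => Finset.disjoint_left.1 (disj_in_bd a b A) h
  have hbo : e ∈ bdE a b A → e ∉ outE a b A :=
    fun h => Finset.disjoint_left.1 (disj_bd_out a b A) h
  have hs' : e ∈ s → e ∈ inE a b A := fun h => hs h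
  have ht' : e ∈ t → e ∈ outE a b A := fun h => ht h
  simp only [Finset.mem_compl, Finset.mem_union, Finset.mem_sdiff] at h1 ⊢
  tauto

/-- The weight of all open sets for which the cluster of `u` is `A`. -/
theorem sum_clus_eq {R : Type*} [CommSemiring R] (a b : E → V) (op cl : E → R) (u : V)
    (A : Finset V) :
    ∑ om ∈ univ.filter (fun om : Finset E => clus a b om u = A),
        (∏ e ∈ om, op e) * ∏ e ∈ omᶜ, cl e
      = ins a b op cl u A * (∏ e ∈ bdE a b A, cl e) * ∏ e ∈ outE a b A, (op e + cl e) := by
  classical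
  rw [ins, Finset.prod_add, mul_assoc, Finset.mul_sum, Finset.sum_mul_sum]
  rw [← Finset.sum_product']
  refine Finset.sum_bij' (fun om _ => (om ∩ inE a b A, om ∩ outE a b A))
    (fun p _ => p.1 ∪ p.2) ?_ ?_ ?_ ?_ ?_
  · intro om hom
    rw [Finset.mem_filter] at hom
    rw [Finset.mem_product, Finset.mem_filter, Finset.mem_powerset, Finset.mem_powerset]
    exact ⟨⟨Finset.inter_subset_right, clus_inter_in hom.2⟩, Finset.inter_subset_right⟩
  · intro p hp
    rw [Finset.mem_product, Finset.mem_filter, Finset.mem_powerset, Finset.mem_powerset] at hp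
    rw [Finset.mem_filter]
    exact ⟨Finset.mem_univ _, clus_union hp.1.2 hp.2⟩
  · intro om hom
    rw [Finset.mem_filter] at hom
    exact (eq_union_of_clus hom.2).symm
  · rintro ⟨s, t⟩ hp
    rw [Finset.mem_product, Finset.mem_filter, Finset.mem_powerset, Finset.mem_powerset] at hp
    have hs : s ⊆ inE a b A := hp.1.1
    have ht : t ⊆ outE a b A := hp.2
    have hd := disj_in_out a b A
    ext e
    · simp only [Finset.mem_inter, Finset.mem_union]
      have : e ∈ inE a b A → e ∉ outE a b A := fun h => Finset.disjoint_left.1 hd h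
      have h1 : e ∈ s → e ∈ inE a b A := fun h => hs h
      have h2 : e ∈ t → e ∈ outE a b A := fun h => ht h
      tauto
    · simp only [Finset.mem_inter, Finset.mem_union]
      have : e ∈ inE a b A → e ∉ outE a b A := fun h => Finset.disjoint_left.1 hd h
      have h1 : e ∈ s → e ∈ inE a b A := fun h => hs h
      have h2 : e ∈ t → e ∈ outE a b A := fun h => ht h
      tauto
  · intro om hom
    rw [Finset.mem_filter] at hom
    have hu := eq_union_of_clus hom.2
    have hs : om ∩ inE a b A ⊆ inE a b A := Finset.inter_subset_right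
    have ht : om ∩ outE a b A ⊆ outE a b A := Finset.inter_subset_right
    have hc : omᶜ = (inE a b A \ (om ∩ inE a b A)) ∪ bdE a b A
        ∪ (outE a b A \ (om ∩ outE a b A)) := by
      conv_lhs => rw [hu]
      exact compl_union hs ht
    have hd1 : Disjoint (om ∩ inE a b A) (om ∩ outE a b A) :=
      (disj_in_out a b A).mono hs ht
    have hd2 : Disjoint (inE a b A \ (om ∩ inE a b A)) (bdE a b A) :=
      (disj_in_bd a b A).mono_left Finset.sdiff_subset
    have hd3 : Disjoint ((inE a b A \ (om ∩ inE a b A)) ∪ bdE a b A)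
        (outE a b A \ (om ∩ outE a b A)) := by
      rw [Finset.disjoint_union_left]
      exact ⟨(disj_in_out a b A).mono Finset.sdiff_subset Finset.sdiff_subset,
        (disj_bd_out a b A).mono_right Finset.sdiff_subset⟩
    have hp1 : ∏ e ∈ om, op e = (∏ e ∈ om ∩ inE a b A, op e) * ∏ e ∈ om ∩ outE a b A, op e := by
      conv_lhs => rw [hu]
      exact Finset.prod_union hd1
    rw [hc, Finset.prod_union hd3, Finset.prod_union hd2, hp1]
    ring

/-- **One-cluster decomposition** (pointwise in the configuration). -/
theorem one_cluster {R : Type*} [CommSemiring R] (a b : E → V) (op cl : E → R) (u : V)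
    (Φ : Finset V → R) :
    ∑ om : Finset E, (∏ e ∈ om, op e) * (∏ e ∈ omᶜ, cl e) * Φ (clus a b om u)
      = ∑ A : Finset V, ins a b op cl u A * (∏ e ∈ bdE a b A, cl e)
          * (∏ e ∈ outE a b A, (op e + cl e)) * Φ A := by
  classical
  rw [← Finset.sum_fiberwise_of_maps_to (s := (univ : Finset (Finset E)))
    (t := (univ : Finset (Finset V))) (g := fun om => clus a b om u)
    (fun _ _ => Finset.mem_univ _)]
  refine Finset.sum_congr rfl (fun A _ => ?_)
  rw [← sum_clus_eq, Finset.sum_mul]
  refine Finset.sum_congr rfl (fun om hom => ?_)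
  rw [(Finset.mem_filter.1 hom).2]

theorem ins_eq_zero {R : Type*} [CommSemiring R] (a b : E → V) (op cl : E → R) {u : V}
    {A : Finset V} (h : u ∉ A) : ins a b op cl u A = 0 := by
  classical
  rw [ins]
  apply Finset.sum_eq_zero
  intro om hom
  rw [Finset.mem_filter] at hom
  exact absurd (hom.2 ▸ self_mem_clus u) h

/-- the full product is the sum over open sets -/
theorem full_expand {R : Type*} [CommSemiring R] (op cl : E → R) :
    ∏ e, (op e + cl e) = ∑ om : Finset E, (∏ e ∈ om, op e) * ∏ e ∈ omᶜ, cl e := by
  classical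
  rw [Finset.prod_add]
  rw [Finset.powerset_univ]
  refine Finset.sum_congr rfl (fun om _ => ?_)
  rw [Finset.compl_eq_univ_sdiff]

end

end Vale.Agent.P159.TM.H60
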